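import Mathlib

/-!
# P097F.NC: the model leaf does not touch the top (definitions and statements)

Lower half plane, the depth of `y` is `-y.im`.
-/

set_option linter.all false

noncomputable section

namespace Vale.Agent.P097F.NC

open Filter Topology Set Metric

/-- the point with abscissa `ξ` and depth `s` -/
def vt (ξ s : ℝ) : ℂ := ⟨ξ, -s⟩

@[simp] theorem vt_re (ξ s : ℝ) : (vt ξ s).re = ξ := rfl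

@[simp] theorem vt_im (ξ s : ℝ) : (vt ξ s).im = -s := rfl

theorem vt_eq (ξ s : ℝ) : vt ξ s = ξ - s * Complex.I := by
  apply Complex.ext <;> simp

/-- the half angle -/
def dl (g Y : ℂ → ℂ) (W : ℝ) (x : ℂ) : ℂ := W * g (Y x) * deriv Y x / 2

/-- the model leaf on the half plane of depth more than `p` -/
structure Lf (g : ℂ → ℂ) (W p : ℝ) (Y : ℂ → ℂ) : Prop where
  dg : DifferentiableOn ℂ g {y | y.im < 0}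
  dY : DifferentiableOn ℂ Y {x | x.im < -p}
  pos : ∀ x : ℂ, x.im < -p → (Y x).im ≤ x.im + p
  md : ∀ x : ℂ, x.im < -p →
    24 * (Complex.sin (dl g Y W x) - dl g Y W x * Complex.cos (dl g Y W x)) = (W * g (Y x)) ^ 3

/-- the a priori bound of a good window -/
def APri (g : ℂ → ℂ) (m j : ℕ) (M : ℝ) : Prop := ∀ y : ℂ, y.im < 0 →
  (‖g y‖ ^ 2 * (-y.im) ^ 2 / max 1 (1 / (-y.im)) ^ (2 * (m - 1))) ^ j ≤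
    M * (max (-y.im) (1 / (-y.im)) * (1 + |y.re| / (-y.im))) ^ 2

/-- the a priori bound, away from the top -/
def AP (g : ℂ → ℂ) (γ M : ℝ) : Prop := ∀ y : ℂ, y.im ≤ -1 / 128 →
  ‖g y‖ * (-y.im) ≤ M * (1 + ‖y‖) ^ γ

/-- every cone has an active point -/
def Act (g : ℂ → ℂ) (a c : ℝ) : Prop := ∀ s τ : ℝ, 0 < τ → τ ≤ 1 / 16 → ∃ y : ℂ, τ ≤ -y.im ∧
  |y.re - s| ≤ a * (-y.im) ∧ c ^ 4 * τ ^ 3 ≤ ‖g y‖ ^ 4 * (-y.im) ^ 3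

/-- the leaf is near the identity in the cone below the depth `T` -/
def Anc (Y : ℂ → ℂ) (T : ℝ) : Prop := ∀ x : ℂ, T ≤ -x.im → |x.re| ≤ -x.im / 2 → ‖Y x - x‖ ≤ T / 8

/-- THE BLOCK -/
def Spec_NC : Prop := ∀ (K m : ℕ) (a c : ℝ), 0 ≤ a → 0 < c → ∃ j₀ : ℕ, ∀ j ≥ j₀, ∀ M : ℝ,
  ∃ W₁ : ℝ, ∀ W ≥ W₁, ∀ (g Y : ℂ → ℂ) (p T : ℝ), Lf g W p Y → APri g m j M → Act g a c →
    0 ≤ p → p ≤ T → T ≤ W ^ K → Anc Y T →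
    ∀ x : ℂ, |x.re| ≤ W ^ K → x.im < -p → (Y x).im ≤ -1 / 32

/-! ## The rows -/

/-- the first integral bounds the imaginary part -/
def S_SIM : Prop := ∀ δ : ℂ, Real.exp |δ.im| ≤ 8 + 4 * ‖Complex.sin δ - δ * Complex.cos δ‖

/-- the derivative of a function with bounded imaginary part -/
def S_DER : Prop := ∀ (f : ℂ → ℂ) (x : ℂ) (ρ n : ℝ), 0 < ρ → 0 < n →
  DifferentiableOn ℂ f (ball x ρ) → (∀ z ∈ ball x ρ, |(f z).im| ≤ n) → ‖deriv f x‖ * ρ ≤ 20 * n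

/-- last and first passage -/
def S_EXIT : Prop := ∀ (f : ℝ → ℝ) (α β c : ℝ), α ≤ β → ContinuousOn f (Icc α β) → f α ≤ c →
  c ≤ f β → (∃ t ∈ Icc α β, f t = c ∧ ∀ s ∈ Icc t β, c ≤ f s) ∧
    ∃ t ∈ Icc α β, f t = c ∧ ∀ s ∈ Icc α t, f s ≤ c

/-- sizes on the vertical above the anchor -/
def S_SIZE : Prop := ∀ (g Y : ℂ → ℂ) (W p γ M B ξ T t : ℝ), Lf g W p Y → AP g γ M → 0 ≤ γ → γ ≤ 1 →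
  1 ≤ M → M ≤ B → 1 ≤ W → W ≤ B → 0 ≤ p → T ≤ B → |ξ| ≤ B → ‖Y (vt ξ T) - vt ξ T‖ ≤ T / 2 →
  0 < t → t ≤ T - p → ‖Y (vt ξ (p + t)) - Y (vt ξ T)‖ * t ≤ 3 * B ^ 2 ∧
    ((Y (vt ξ (p + t))).im ≤ -1 / 32 → ∀ z ∈ ball (vt ξ (p + t)) (t / 2),
      |(dl g Y W z).im| ≤ 20 * Real.log (3 * B ^ 2 / t))

/-- the half angle on the vertical -/
def S_DINT : Prop := ∀ (δ : ℂ → ℂ) (p B ξ T₁ te : ℝ), DifferentiableOn ℂ δ {x | x.im < -p} →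
  1 ≤ B → T₁ ≤ B → 0 < te → ‖δ (vt ξ (p + T₁))‖ ≤ 1 →
  (∀ t ∈ Icc te T₁, ∀ z ∈ ball (vt ξ (p + t)) (t / 2), |(δ z).im| ≤ 20 * Real.log (3 * B ^ 2 / t)) →
  ∀ t ∈ Icc te T₁, ‖δ (vt ξ (p + t))‖ ≤ 1000 * Real.log (3 * B ^ 2 / t) ^ 2

/-- the variation of the angle on the vertical -/
def S_VAR : Prop := ∀ (g θ Y : ℂ → ℂ) (W p B ξ T₁ te ε : ℝ), Lf g W p Y →
  (∀ y : ℂ, y.im < 0 → HasDerivAt θ (g y) y) → 0 < W → 1 ≤ B → T₁ ≤ B → 0 < te → 0 < ε →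
  ε ≤ 1 / 2 →
  (∀ t ∈ Icc te T₁, ‖dl g Y W (vt ξ (p + t))‖ ≤ 1000 * Real.log (3 * B ^ 2 / t) ^ 2) →
  ∀ t ∈ Icc te T₁, ‖θ (Y (vt ξ (p + t))) - θ (Y (vt ξ (p + te)))‖ * W ≤
    16000 / ε ^ 2 * (3 * B ^ 2) ^ ε * t ^ (1 - ε)

/-- a path from `ye` to the circle of radius `ρ` on which the angle varies by at most `m` -/
structure Pth (θ : ℂ → ℂ) (ye : ℂ) (ρ m α β : ℝ) (Γ : ℝ → ℂ) : Prop where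
  le : α ≤ β
  cont : ContinuousOn Γ (Icc α β)
  st : Γ α = ye
  en : ‖Γ β - ye‖ = ρ
  ins : ∀ t ∈ Icc α β, (Γ t).im ≤ -1 / 32 ∧ ‖Γ t - ye‖ ≤ ρ ∧ ‖θ (Γ t) - θ ye‖ ≤ m

/-- the lemma of Hall in the cone -/
def S_HALL : Prop := ∀ (g θ : ℂ → ℂ) (γ M a m α β t₀ R : ℝ) (ye z₀ : ℂ) (Γ : ℝ → ℂ),
  (∀ y : ℂ, y.im < 0 → HasDerivAt θ (g y) y) → AP g γ M → 0 ≤ γ → 1 ≤ M → 0 ≤ a → 0 < m → m ≤ 1 →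
  ye.im = -1 / 32 → t₀ = -z₀.im → 1 / 16 ≤ t₀ → |z₀.re - ye.re| ≤ a * t₀ →
  R = 100 * (a + 2) ^ 2 * t₀ ^ 2 → Pth θ ye t₀ m α β Γ →
  ‖g z₀‖ * t₀ ≤ 8 * m ^ (1 / (960 * (a + 6) ^ 2)) * (128 * R * M * (1 + ‖ye‖ + 2 * R) ^ γ)

/-- the angle varies on every path that starts near the top -/
def S_LOW : Prop := ∀ a c : ℝ, 0 ≤ a → 0 < c → ∃ ω : ℝ, 0 < ω ∧ ω ≤ 1 ∧ ∀ M : ℝ, 1 ≤ M →
  ∃ C : ℝ, 1 ≤ C ∧ ∀ (g θ : ℂ → ℂ) (γ : ℝ) (ye : ℂ), (∀ y : ℂ, y.im < 0 → HasDerivAt θ (g y) y) →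
    AP g γ M → Act g a c → 0 ≤ γ → γ ≤ 1 / 16 → ye.im = -1 / 32 →
    ∃ t₀ : ℝ, 1 / 16 ≤ t₀ ∧ t₀ ≤ C * (1 + ‖ye‖) ^ (8 * γ) ∧ ∀ (m α β : ℝ) (Γ : ℝ → ℂ),
      0 < m → m ≤ 1 → Pth θ ye t₀ m α β Γ → 1 ≤ C * m ^ ω * (1 + ‖ye‖) ^ (17 * γ)

/-- one vertical -/
def S_CORE : Prop := ∀ (K : ℕ) (a c : ℝ), 1 ≤ K → 0 ≤ a → 0 < c → ∃ γ₀ : ℝ, 0 < γ₀ ∧
  ∀ γ M : ℝ, 0 ≤ γ → γ ≤ γ₀ → 1 ≤ M → ∃ W₁ : ℝ, ∀ W ≥ W₁, ∀ (g Y : ℂ → ℂ) (p T ξ : ℝ),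
    Lf g W p Y → AP g γ M → Act g a c → 0 ≤ p → p < T → W ≤ T → T ≤ W ^ K → |ξ| ≤ W ^ K →
    ‖Y (vt ξ T) - vt ξ T‖ ≤ T / 2 → ‖dl g Y W (vt ξ T)‖ ≤ 1 →
    ∀ t : ℝ, 0 < t → t ≤ T - p → (Y (vt ξ (p + t))).im ≤ -1 / 32

/-- the two forms of the a priori bound -/
def S_APR : Prop := ∀ (m j : ℕ) (M : ℝ), 1 ≤ j → ∃ M' : ℝ, 1 ≤ M' ∧ ∀ g : ℂ → ℂ,
  APri g m j M → AP g (2 / j) M'

end Vale.Agent.P097F.NC
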