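import Vale.Agent.P097F.NC.Defs
import Vale.Agent.P097.H202.Prim

/-!
# P097F.NC: one vertical
-/

set_option linter.all false

noncomputable section

namespace Vale.Agent.P097F.NC

open Filter Topology Set Metric

theorem core_pw {ρ s e f : ℝ} {n : ℕ} (hρ : 0 ≤ ρ) (hs : 1 ≤ s) (h : ρ ≤ s ^ n) (he : 0 ≤ e)
    (hf : n * e ≤ f) : ρ ^ e ≤ s ^ f := by
  have hs0 : 0 ≤ s := by linarith
  calc ρ ^ e ≤ (s ^ n) ^ e := Real.rpow_le_rpow hρ h he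
    _ = s ^ ((n : ℝ) * e) := by rw [Real.rpow_mul hs0, Real.rpow_natCast]
    _ ≤ s ^ f := Real.rpow_le_rpow_of_exponent_le hs hf

/-- the last contradiction -/
theorem core_fin {ω C D γ ρ s : ℝ} {n : ℕ} (hω : 0 < ω) (hω1 : ω ≤ 1) (hC : 1 ≤ C) (hD : 1 ≤ D)
    (hγ : 0 ≤ γ) (hγ' : n * (17 * γ) ≤ ω / 2) (hρ : 0 ≤ ρ) (hs : 1 ≤ s) (h : ρ ≤ s ^ n)
    (hbig : C * D < s ^ (ω / 2)) : ¬ 1 ≤ C * (D / s) ^ ω * ρ ^ (17 * γ) := by
  intro h1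
  have hs0 : 0 < s := by linarith
  have a1 : ρ ^ (17 * γ) ≤ s ^ (ω / 2) := core_pw hρ hs h (by linarith) hγ'
  have a2 : D ^ ω ≤ D := by
    have := Real.rpow_le_rpow_of_exponent_le hD hω1
    rwa [Real.rpow_one] at this
  have a3 : s ^ ω = s ^ (ω / 2) * s ^ (ω / 2) := by
    rw [← Real.rpow_add hs0]
    ring_nf
  have a4 : 0 < s ^ (ω / 2) := Real.rpow_pos_of_pos hs0 _
  rw [Real.div_rpow (by linarith) hs0.le, a3] at h1
  set u := s ^ (ω / 2) with hu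
  have a5 : C * (D ^ ω / (u * u)) * ρ ^ (17 * γ) ≤ C * (D / (u * u)) * u := by
    have b1 : D ^ ω / (u * u) ≤ D / (u * u) := div_le_div_of_nonneg_right a2 (by positivity)
    have b2 : 0 ≤ D / (u * u) := by positivity
    exact mul_le_mul (mul_le_mul_of_nonneg_left b1 (by linarith)) a1 (Real.rpow_nonneg hρ _)
      (mul_nonneg (by linarith) b2)
  have a6 : C * (D / (u * u)) * u = C * D / u := by field_simp
  have a7 : C * D / u < 1 := by rwa [div_lt_one a4]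
  linarith

/-- first passage -/
theorem core_path (EXIT : S_EXIT) {θ : ℂ → ℂ} {Γ : ℝ → ℂ} {te T₁ t₀ m : ℝ} (hle : te ≤ T₁)
    (hc : ContinuousOn Γ (Icc te T₁)) (h1 : ∀ t ∈ Icc te T₁, (Γ t).im ≤ -1 / 32) (h0 : 0 ≤ t₀)
    (hf : t₀ ≤ ‖Γ T₁ - Γ te‖)
    (hv : ∀ t ∈ Icc te T₁, ‖Γ t - Γ te‖ ≤ t₀ → ‖θ (Γ t) - θ (Γ te)‖ ≤ m) :
    ∃ β, Pth θ (Γ te) t₀ m te β Γ := by
  obtain ⟨β, hβ, e1, e2⟩ := (EXIT (fun t => ‖Γ t - Γ te‖) te T₁ t₀ hle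
    (hc.sub continuousOn_const).norm (by simpa using h0) hf).2
  have hsub : Icc te β ⊆ Icc te T₁ := Icc_subset_Icc_right hβ.2
  exact ⟨β, hβ.1, hc.mono hsub, rfl, e1, fun t ht =>
    ⟨h1 t (hsub ht), e2 t ht, hv t (hsub ht) (e2 t ht)⟩⟩

theorem core_q {C s : ℝ} (hC : 1 ≤ C) (h : 4 * C ≤ s) : C * s ≤ s ^ 4 / 4 := by
  have h1 : 1 ≤ s := by linarith
  have h2 : s ^ 2 ≤ s ^ 4 := pow_le_pow_right₀ h1 (by norm_num)
  nlinarith

/-- the exit point is near -/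
theorem core_near (EXIT : S_EXIT) {θ : ℂ → ℂ} {Γ : ℝ → ℂ} {te T₁ r V C ε t₀ : ℝ}
    (hC : 1 ≤ C) (hrC : 4 * C ≤ r) (hV : 0 ≤ V) (hε : 0 ≤ ε) (hε' : ε ≤ 1 / 2) (h0 : 0 < te)
    (hle : te ≤ T₁) (hc : ContinuousOn Γ (Icc te T₁)) (he : (Γ te).im = -1 / 32)
    (h1 : ∀ t ∈ Icc te T₁, (Γ t).im ≤ -1 / 32) (h2 : ∀ t ∈ Icc te T₁, (Γ t).im ≤ -t)
    (h4 : ∀ t ∈ Icc te T₁, ‖θ (Γ t) - θ (Γ te)‖ * r ^ 4 ≤ V * (3 * r ^ 2) * t ^ (1 - ε))
    (h6 : (Γ T₁).im ≤ -r ^ 4 / 2) (ht : 1 / 16 ≤ t₀) (ht' : t₀ ≤ C * r) :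
    ∃ β, Pth θ (Γ te) t₀ (9 * C * V / r) te β Γ := by
  have hr : 4 ≤ r := by linarith
  have hq := core_q hC hrC
  have hCr : 4 ≤ C * r := by nlinarith
  have him : ∀ t, -(Γ t).im - 1 / 32 ≤ ‖Γ t - Γ te‖ := by
    intro t
    have a := Complex.abs_im_le_norm (Γ t - Γ te)
    have b := neg_abs_le (Γ t - Γ te).im
    rw [Complex.sub_im, he] at a b
    linarith
  refine core_path EXIT hle hc h1 (by linarith) (by linarith [him T₁]) fun t ht2 h => ?_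
  have t0 : 0 < t := h0.trans_le ht2.1
  have a1 : t ≤ 1 / 32 + C * r := by linarith [him t, h2 t ht2]
  have a2 : t ^ (1 - ε) ≤ 3 * C * r := by
    rcases le_total t 1 with h' | h'
    · have := Real.rpow_le_one t0.le h' (by linarith : 0 ≤ 1 - ε)
      linarith
    · have := Real.rpow_le_rpow_of_exponent_le h' (by linarith : 1 - ε ≤ 1)
      rw [Real.rpow_one] at this
      linarith
  have a3 := (h4 t ht2).trans (mul_le_mul_of_nonneg_left a2 (by positivity))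
  have r0 : 0 < r := by linarith
  rw [le_div_iff₀ r0]
  have a4 : 0 < r ^ 3 := by positivity
  refine le_of_mul_le_mul_right ?_ a4
  calc ‖θ (Γ t) - θ (Γ te)‖ * r * r ^ 3 = ‖θ (Γ t) - θ (Γ te)‖ * r ^ 4 := by ring
    _ ≤ V * (3 * r ^ 2) * (3 * C * r) := a3
    _ = 9 * C * V * r ^ 3 := by ring

/-- the exit point is far -/
theorem core_far (EXIT : S_EXIT) {θ : ℂ → ℂ} {Γ : ℝ → ℂ} {te T₁ r s B V C ε t₀ : ℝ}
    (hC : 1 ≤ C) (hrC : 4 * C ≤ r) (hrs : r ≤ s) (hB : 1 ≤ B) (hBs : 8 * B ≤ s) (hV : 0 ≤ V)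
    (hε' : ε ≤ 1 / 2) (h0 : 0 < te)
    (hle : te ≤ T₁) (hc : ContinuousOn Γ (Icc te T₁)) (hs : s ^ 4 = 1 + ‖Γ te‖)
    (h1 : ∀ t ∈ Icc te T₁, (Γ t).im ≤ -1 / 32)
    (h3 : ∀ t ∈ Icc te T₁, ‖Γ t - Γ T₁‖ * t ≤ 3 * B ^ 2)
    (h4 : ∀ t ∈ Icc te T₁, ‖θ (Γ t) - θ (Γ te)‖ * r ^ 4 ≤ V * (3 * r ^ 2) * t ^ (1 - ε))
    (h5 : ‖Γ T₁‖ ≤ 3 * B) (ht : 1 / 16 ≤ t₀) (ht' : t₀ ≤ C * s) :
    ∃ β, Pth θ (Γ te) t₀ (9 * C * V / s) te β Γ := by
  have hr : 4 ≤ r := by linarith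
  have hq := core_q hC (hrC.trans hrs)
  have s1 : 1 ≤ s := by linarith
  have s0 : 0 < s := by linarith
  have s4 : s ≤ s ^ 4 := le_self_pow₀ s1 (by norm_num)
  have a0 : s ^ 4 / 2 ≤ ‖Γ T₁ - Γ te‖ := by
    have := norm_sub_norm_le (Γ te) (Γ T₁)
    rw [norm_sub_rev] at this
    linarith
  refine core_path EXIT hle hc h1 (by linarith) (by linarith) fun t ht2 h => ?_
  have t0 : 0 < t := h0.trans_le ht2.1
  have a1 : s ^ 4 / 4 ≤ ‖Γ t - Γ T₁‖ := by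
    have := norm_sub_le_norm_sub_add_norm_sub (Γ T₁) (Γ t) (Γ te)
    rw [norm_sub_rev (Γ T₁) (Γ t)] at this
    linarith
  have a2 : s ^ 4 / 4 * t ≤ 3 * B ^ 2 := (mul_le_mul_of_nonneg_right a1 t0.le).trans (h3 t ht2)
  have a3 : (8 * B) ^ 2 ≤ s ^ 2 := pow_le_pow_left₀ (by linarith) hBs 2
  have a4 : t * s ^ 2 ≤ 1 := by
    have b : 0 < s ^ 2 := by positivity
    refine le_of_mul_le_mul_right ?_ b
    have b2 : t * s ^ 2 * s ^ 2 = 4 * (s ^ 4 / 4 * t) := by ring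
    rw [b2]
    nlinarith
  have a5 : t ≤ 1 := by
    have b : 1 ≤ s ^ 2 := one_le_pow₀ s1
    nlinarith
  have a6 : t ^ (1 - ε) ≤ 1 / s := by
    have b1 := Real.rpow_le_rpow_of_exponent_ge t0 a5 (by linarith : 1 / 2 ≤ 1 - ε)
    refine b1.trans ?_
    rw [← Real.sqrt_eq_rpow]
    refine Real.sqrt_le_iff.2 ⟨by positivity, ?_⟩
    rw [div_pow, one_pow, le_div_iff₀ (by positivity)]
    exact a4
  have a7 := (h4 t ht2).trans (mul_le_mul_of_nonneg_left a6 (by positivity))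
  have r0 : 0 < r := by linarith
  have a8 : 0 < r ^ 4 := by positivity
  refine le_of_mul_le_mul_right (a7.trans ?_) a8
  have a9 : r ^ 2 ≤ r ^ 4 := pow_le_pow_right₀ (by linarith) (by norm_num)
  have a10 : 3 * r ^ 2 ≤ 9 * C * r ^ 4 := by nlinarith
  calc V * (3 * r ^ 2) * (1 / s) = V / s * (3 * r ^ 2) := by ring
    _ ≤ V / s * (9 * C * r ^ 4) := mul_le_mul_of_nonneg_left a10 (by positivity)
    _ = 9 * C * V / s * r ^ 4 := by ring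

theorem core_rt {x : ℝ} (hx : 0 ≤ x) : ∃ s : ℝ, 0 ≤ s ∧ s ^ 4 = x := by
  refine ⟨√√x, Real.sqrt_nonneg _, ?_⟩
  have : √√x ^ 4 = (√√x ^ 2) ^ 2 := by ring
  rw [this, Real.sq_sqrt (Real.sqrt_nonneg _), Real.sq_sqrt hx]

/-- both cases -/
theorem core_geo (EXIT : S_EXIT) {θ : ℂ → ℂ} {Γ : ℝ → ℂ} {te T₁ r B V C ε : ℝ} {n : ℕ}
    (hn : 4 ≤ n) (hC : 1 ≤ C) (hrC : 4 * C ≤ r) (hB : 1 ≤ B) (hBn : (B * r ^ 3) ^ 4 ≤ r ^ n)
    (hV : 0 ≤ V) (hε : 0 ≤ ε) (hε' : ε ≤ 1 / 2) (h0 : 0 < te)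
    (hle : te ≤ T₁) (hc : ContinuousOn Γ (Icc te T₁)) (he : (Γ te).im = -1 / 32)
    (h1 : ∀ t ∈ Icc te T₁, (Γ t).im ≤ -1 / 32) (h2 : ∀ t ∈ Icc te T₁, (Γ t).im ≤ -t)
    (h3 : ∀ t ∈ Icc te T₁, ‖Γ t - Γ T₁‖ * t ≤ 3 * B ^ 2)
    (h4 : ∀ t ∈ Icc te T₁, ‖θ (Γ t) - θ (Γ te)‖ * r ^ 4 ≤ V * (3 * r ^ 2) * t ^ (1 - ε))
    (h5 : ‖Γ T₁‖ ≤ 3 * B) (h6 : (Γ T₁).im ≤ -r ^ 4 / 2) :
    ∃ s, r ≤ s ∧ 1 + ‖Γ te‖ ≤ s ^ n ∧ ∀ t₀, 1 / 16 ≤ t₀ → t₀ ≤ C * s →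
      ∃ β, Pth θ (Γ te) t₀ (9 * C * V / s) te β Γ := by
  have hr : 4 ≤ r := by linarith
  rcases le_total (1 + ‖Γ te‖) (r ^ n) with h | h
  · exact ⟨r, le_rfl, h, fun t₀ ht ht' =>
      core_near EXIT hC hrC hV hε hε' h0 hle hc he h1 h2 h4 h6 ht ht'⟩
  · obtain ⟨s, s0, hs⟩ := core_rt (x := 1 + ‖Γ te‖) (by positivity)
    have a1 : B * r ^ 3 ≤ s := by
      refine le_of_pow_le_pow_left₀ (n := 4) (by norm_num) s0 ?_
      rw [hs]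
      exact hBn.trans h
    have a2 : r ≤ r ^ 3 := le_self_pow₀ (by linarith) (by norm_num)
    have a3 : 2 ^ 3 ≤ r ^ 3 := pow_le_pow_left₀ (by norm_num) (by linarith) 3
    have a4 : r ≤ s := by nlinarith
    have a5 : 8 * B ≤ s := by nlinarith
    refine ⟨s, a4, ?_, fun t₀ ht ht' =>
      core_far EXIT hC hrC a4 hB a5 hV hε' h0 hle hc hs h1 h3 h4 h5 ht ht'⟩
    rw [← hs]
    exact pow_le_pow_right₀ (by linarith) hn

theorem core_dl {g Y : ℂ → ℂ} {W p : ℝ} (h : Lf g W p Y) :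
    DifferentiableOn ℂ (dl g Y W) {x | x.im < -p} := by
  have ho : IsOpen {x : ℂ | x.im < -p} := isOpen_lt Complex.continuous_im continuous_const
  have a1 : DifferentiableOn ℂ (fun x => g (Y x)) {x | x.im < -p} :=
    h.dg.comp h.dY fun x hx => by
      have b := h.pos x hx
      have b2 : x.im < -p := hx
      show (Y x).im < 0
      linarith
  exact ((a1.const_mul (W : ℂ)).mul (h.dY.deriv ho)).div_const 2

theorem core_eps {r : ℝ} {K : ℕ} (hK : 1 ≤ K) (hr : 0 ≤ r) :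
    (3 * ((r ^ 4) ^ K) ^ 2) ^ (((4 * K : ℕ) : ℝ)⁻¹) ≤ 3 * r ^ 2 := by
  have a1 : 3 * ((r ^ 4) ^ K) ^ 2 ≤ (3 * r ^ 2) ^ (4 * K) := by
    have b1 : ((r ^ 4) ^ K) ^ 2 = (r ^ 2) ^ (4 * K) := by ring
    have b2 : (3 : ℝ) ≤ 3 ^ (4 * K) := le_self_pow₀ (by norm_num) (by omega)
    rw [mul_pow, b1]
    exact mul_le_mul_of_nonneg_right b2 (by positivity)
  refine (Real.rpow_le_rpow (by positivity) a1 (by positivity)).trans ?_
  rw [Real.pow_rpow_inv_natCast (by positivity) (by omega)]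

theorem core_cont {g Y : ℂ → ℂ} {W p ξ α β : ℝ} (h : Lf g W p Y) (hα : 0 < α) :
    ContinuousOn (fun t : ℝ => Y (vt ξ (p + t))) (Icc α β) := by
  have a1 : Continuous fun t : ℝ => vt ξ (p + t) := by
    simp only [vt_eq]
    fun_prop
  refine h.dY.continuousOn.comp a1.continuousOn fun t ht => ?_
  show (vt ξ (p + t)).im < -p
  rw [vt_im]
  linarith [ht.1]

theorem core (SIZE : S_SIZE) (DINT : S_DINT) (VAR : S_VAR) (EXIT : S_EXIT) (LOW : S_LOW) :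
    S_CORE := by
  intro K a c hK ha hc
  obtain ⟨ω, hω, hω1, hL⟩ := LOW a c ha hc
  obtain ⟨n, hn⟩ : ∃ n : ℕ, n = 16 * K + 12 := ⟨_, rfl⟩
  have n4 : 4 ≤ n := by omega
  have n4' : (4 : ℝ) ≤ n := by exact_mod_cast n4
  obtain ⟨ε, hε⟩ : ∃ ε : ℝ, ε = ((4 * K : ℕ) : ℝ)⁻¹ := ⟨_, rfl⟩
  have k4 : (2 : ℝ) ≤ ((4 * K : ℕ) : ℝ) := by exact_mod_cast (by omega : 2 ≤ 4 * K)
  have e0 : 0 < ε := by
    rw [hε]
    positivity
  have e1 : ε ≤ 1 / 2 := by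
    rw [hε, one_div]
    exact inv_anti₀ (by norm_num) k4
  obtain ⟨V, hV⟩ : ∃ V : ℝ, V = 16000 / ε ^ 2 := ⟨_, rfl⟩
  have V1 : 1 ≤ V := by
    rw [hV, le_div_iff₀ (by positivity)]
    nlinarith
  refine ⟨ω / (34 * n), by positivity, fun γ M hγ hγ' hM => ?_⟩
  rw [le_div_iff₀ (by positivity)] at hγ'
  have g1 : n * (17 * γ) ≤ ω / 2 := by linarith
  have g2 : n * (8 * γ) ≤ 1 := by nlinarith
  have g3 : γ ≤ 1 / 16 := by nlinarith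
  obtain ⟨C, hC, hL⟩ := hL M hM
  obtain ⟨r₁, hr₁⟩ := eventually_atTop.1
    ((tendsto_rpow_atTop (half_pos hω)).eventually_gt_atTop (C * (9 * C * V)))
  have D1 : 1 ≤ C * V := one_le_mul_of_one_le_of_one_le hC V1
  have D2 : C ≤ C * V := le_mul_of_one_le_right (by linarith) V1
  refine ⟨(|r₁| + 9 * (C * V) + M) ^ 4, fun W hW g Y p T ξ hf hAP hAct hp hpT hWT hTB hξ han hd
    t₁ ht₁ ht₁' => ?_⟩
  have q0 := abs_nonneg r₁
  have q1 := le_abs_self r₁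
  obtain ⟨r, r0, rfl⟩ := core_rt (x := W) (le_trans (by positivity) hW)
  have hr : |r₁| + 9 * (C * V) + M ≤ r := le_of_pow_le_pow_left₀ (n := 4) (by norm_num) r0 hW
  have r1 : 1 ≤ r := by linarith
  have r4 : r ≤ r ^ 4 := le_self_pow₀ r1 (by norm_num)
  have hWB : r ^ 4 ≤ (r ^ 4) ^ K := le_self_pow₀ (by linarith) (by omega)
  have hE := core_eps hK r0
  have hBn : ((r ^ 4) ^ K * r ^ 3) ^ 4 ≤ r ^ n := le_of_eq (by rw [hn]; ring)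
  rw [← hε] at hE
  generalize (r ^ 4) ^ K = B at *
  obtain ⟨θ, hθ⟩ := P097.H202.prim_convex (isOpen_lt Complex.continuous_im continuous_const)
    (convex_halfSpace_im_lt 0) hf.dg
  by_contra hcon
  rw [not_le] at hcon
  have eT : p + (T - p) = T := by ring
  have h6 : (Y (vt ξ T)).im ≤ -r ^ 4 / 2 := by
    have b1 := (le_abs_self _).trans ((Complex.abs_im_le_norm _).trans han)
    rw [Complex.sub_im, vt_im] at b1
    linarith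
  have h5 : ‖Y (vt ξ T)‖ ≤ 3 * B := by
    have b1 := norm_sub_norm_le (Y (vt ξ T)) (vt ξ T)
    have b2 := Complex.norm_le_abs_re_add_abs_im (vt ξ T)
    rw [vt_re, vt_im, abs_neg, abs_of_nonneg (by linarith : 0 ≤ T)] at b2
    linarith
  obtain ⟨te, hte, he, h1⟩ := (EXIT (fun t => -(Y (vt ξ (p + t))).im) t₁ (T - p) (1 / 32) ht₁'
    (Complex.continuous_im.comp_continuousOn (core_cont hf ht₁)).neg (by linarith)
    (by rw [eT]; linarith)).1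
  have te0 : 0 < te := ht₁.trans_le hte.1
  have he' : (Y (vt ξ (p + te))).im = -1 / 32 := by linarith
  have h1' : ∀ t ∈ Icc te (T - p), (Y (vt ξ (p + t))).im ≤ -1 / 32 := fun t ht => by
    linarith [h1 t ht]
  have hS := fun t (ht : t ∈ Icc te (T - p)) => SIZE g Y (r ^ 4) p γ M B ξ T t hf hAP hγ
    (by linarith) hM (by linarith) (by linarith) hWB hp hTB hξ han (te0.trans_le ht.1) ht.2
  have hD := DINT (dl g Y (r ^ 4)) p B ξ (T - p) te (core_dl hf) (by linarith) (by linarith) te0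
    (by rwa [eT]) fun t ht => (hS t ht).2 (h1' t ht)
  have hVr := VAR g θ Y (r ^ 4) p B ξ (T - p) te ε hf hθ (by linarith) (by linarith) (by linarith)
    te0 e0 e1 hD
  rw [← hV] at hVr
  obtain ⟨s, hs, hρ, hP⟩ := core_geo EXIT (θ := θ) (Γ := fun t => Y (vt ξ (p + t))) (te := te)
    (T₁ := T - p) (r := r) (B := B) (V := V) (C := C) (ε := ε) n4 hC (by linarith) (by linarith)
    hBn (by linarith) e0.le e1 te0 hte.2 (core_cont hf te0) he' h1'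
    (fun t ht => by
      have b := hf.pos (vt ξ (p + t)) (by rw [vt_im]; linarith [ht.1])
      rw [vt_im] at b
      linarith)
    (fun t ht => by
      rw [eT]
      exact (hS t ht).1)
    (fun t ht => (hVr t ht).trans (mul_le_mul_of_nonneg_right
      (mul_le_mul_of_nonneg_left hE (by linarith))
      (Real.rpow_nonneg (by linarith [ht.1]) _)))
    (by rwa [eT]) (by rwa [eT])
  obtain ⟨t₀, t1, t2, t3⟩ := hL g θ γ (Y (vt ξ (p + te))) hθ hAP hAct hγ g3 he'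
  have s1 : 1 ≤ s := by linarith
  have u1 := core_pw (by positivity) s1 hρ (by linarith : 0 ≤ 8 * γ) g2
  rw [Real.rpow_one] at u1
  obtain ⟨β, hβ⟩ := hP t₀ t1 (t2.trans (mul_le_mul_of_nonneg_left u1 (by linarith)))
  have u2 : 1 ≤ 9 * C * V := by linarith
  exact core_fin hω hω1 hC u2 hγ g1 (by positivity) s1 hρ (hr₁ s (by linarith))
    (t3 _ _ _ _ (by positivity) (by rw [div_le_one (by linarith)]; linarith) hβ)

end Vale.Agent.P097F.NC
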