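import Vale.Agent.P097F.NC.Defs

/-! P097F.NC: integration on a vertical -/

set_option linter.all false

noncomputable section

namespace Vale.Agent.P097F.NC

open Filter Topology Set Metric

namespace DintA

theorem opn (p : ℝ) : IsOpen {x : ℂ | x.im < -p} :=
  isOpen_lt Complex.continuous_im continuous_const

theorem hvt (ξ p s : ℝ) : HasDerivAt (fun s : ℝ => vt ξ (p + s)) (-Complex.I) s := by
  have h : (fun s : ℝ => vt ξ (p + s)) = fun s : ℝ => ((ξ : ℂ) - p * Complex.I) - (s : ℂ) * Complex.I := by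
    funext s; rw [vt_eq]; push_cast; ring
  rw [h]
  have h1 : HasDerivAt (fun s : ℝ => (s : ℂ) * Complex.I) (1 * Complex.I) s :=
    (Complex.ofRealCLM.hasDerivAt (x := s)).mul_const Complex.I
  have h2 := h1.const_sub ((ξ : ℂ) - p * Complex.I)
  simpa using h2

theorem hcomp {f : ℂ → ℂ} {f' : ℂ} (ξ p s : ℝ) (h : HasDerivAt f f' (vt ξ (p + s))) :
    HasDerivAt (fun s : ℝ => f (vt ξ (p + s))) (f' * -Complex.I) s := by
  have h1 := (h.hasFDerivAt.restrictScalars ℝ).comp_hasDerivAt s (hvt ξ p s)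
  have e : (ContinuousLinearMap.restrictScalars ℝ
      (ContinuousLinearMap.toSpanSingleton ℂ f')) (-Complex.I) = f' * -Complex.I := by
    simp [mul_comm]
  rw [e] at h1
  exact h1

theorem la1 {B s : ℝ} (hB : 1 ≤ B) (hs : 0 < s) (h : s ≤ B) : 1 ≤ Real.log (3 * B ^ 2 / s) := by
  rw [Real.le_log_iff_exp_le (by positivity), le_div_iff₀ hs]
  have := Real.exp_one_lt_d9
  nlinarith [Real.exp_pos 1]

end DintA

open DintA

theorem dint (hD : S_DER) : S_DINT := by
  intro δ p B ξ T₁ te hδ hB hT hte h1 him t ht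
  have ht0 : 0 < t := hte.trans_le ht.1
  set L := Real.log (3 * B ^ 2 / t) with hL
  have L1 : 1 ≤ L := la1 hB ht0 (ht.2.trans hT)
  have hd : ∀ s : ℝ, 0 < s → HasDerivAt (fun s : ℝ => δ (vt ξ (p + s)) - δ (vt ξ (p + t)))
      (deriv δ (vt ξ (p + s)) * -Complex.I) s := fun s hs =>
    (hcomp ξ p s (hδ.differentiableAt ((opn p).mem_nhds (by
      show (vt ξ (p + s)).im < -p
      simp; linarith))).hasDerivAt).sub_const _
  have hb : ∀ s : ℝ, 0 < s → HasDerivAt (fun s : ℝ => 800 * L * (Real.log s - Real.log t))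
      (800 * L * s⁻¹) s := fun s hs =>
    ((Real.hasDerivAt_log hs.ne').sub_const _).const_mul _
  have key := image_norm_le_of_norm_deriv_right_le_deriv_boundary' (a := t) (b := T₁)
    (f := fun s : ℝ => δ (vt ξ (p + s)) - δ (vt ξ (p + t)))
    (f' := fun s => deriv δ (vt ξ (p + s)) * -Complex.I)
    (fun s hs => (hd s (ht0.trans_le hs.1)).continuousAt.continuousWithinAt)
    (fun s hs => (hd s (ht0.trans_le hs.1)).hasDerivWithinAt)
    (B := fun s : ℝ => 800 * L * (Real.log s - Real.log t)) (B' := fun s => 800 * L * s⁻¹)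
    (by simp)
    (fun s hs => (hb s (ht0.trans_le hs.1)).continuousAt.continuousWithinAt)
    (fun s hs => (hb s (ht0.trans_le hs.1)).hasDerivWithinAt)
    (fun s hs => by
      have hs0 : 0 < s := ht0.trans_le hs.1
      have hs1 : 1 ≤ Real.log (3 * B ^ 2 / s) := la1 hB hs0 (hs.2.le.trans hT)
      have hs2 : Real.log (3 * B ^ 2 / s) ≤ L :=
        Real.log_le_log (by positivity) (by gcongr; exact hs.1)
      have h := hD δ (vt ξ (p + s)) (s / 2) (20 * Real.log (3 * B ^ 2 / s)) (by positivity)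
        (by positivity) (hδ.mono fun z hz => by
          have h2 := (Complex.abs_im_le_norm (z - vt ξ (p + s))).trans_lt (mem_ball_iff_norm.1 hz)
          have h3 := (abs_lt.1 h2).2
          show z.im < -p
          simp at h3; linarith) (him s ⟨ht.1.trans hs.1, hs.2.le⟩)
      rw [norm_mul, norm_neg, Complex.norm_I, mul_one, ← div_eq_mul_inv, le_div_iff₀ hs0]
      linarith)
    (⟨ht.2, le_rfl⟩ : T₁ ∈ Icc t T₁)
  have h4 : Real.log T₁ - Real.log t ≤ L := by
    rw [← Real.log_div (ht0.trans_le ht.2).ne' ht0.ne']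
    refine Real.log_le_log (div_pos (ht0.trans_le ht.2) ht0) ?_
    gcongr
    nlinarith
  have h5 : ‖δ (vt ξ (p + t))‖ ≤ ‖δ (vt ξ (p + T₁))‖ +
      ‖δ (vt ξ (p + T₁)) - δ (vt ξ (p + t))‖ := by
    have := norm_sub_le (δ (vt ξ (p + T₁))) (δ (vt ξ (p + T₁)) - δ (vt ξ (p + t)))
    simpa using this
  have h6 : 800 * L * (Real.log T₁ - Real.log t) ≤ 800 * L * L := by gcongr
  nlinarith

theorem var : S_VAR := by
  intro g θ Y W p B ξ T₁ te ε hL hθ hW hB hT hte hε hε2 hdl t ht
  set A := 16000 / ε ^ 2 * (3 * B ^ 2) ^ ε with hA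
  have A0 : 0 < A := by positivity
  have hm : ∀ s : ℝ, 0 < s → (vt ξ (p + s)).im < -p := fun s hs => by simp; linarith
  have hd : ∀ s : ℝ, 0 < s →
      HasDerivAt (fun s : ℝ => θ (Y (vt ξ (p + s))) - θ (Y (vt ξ (p + te))))
      (g (Y (vt ξ (p + s))) * deriv Y (vt ξ (p + s)) * -Complex.I) s := fun s hs => by
    have h1 := (hL.dY.differentiableAt ((opn p).mem_nhds (hm s hs))).hasDerivAt
    have h2 : (Y (vt ξ (p + s))).im < 0 := by
      have := hL.pos _ (hm s hs)
      have := hm s hs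
      linarith
    exact (hcomp (f := fun x => θ (Y x)) ξ p s ((hθ _ h2).comp _ h1)).sub_const _
  have hb : ∀ s : ℝ, 0 < s → HasDerivAt (fun s : ℝ => A / W * s ^ (1 - ε))
      (A / W * ((1 - ε) * s ^ (1 - ε - 1))) s := fun s hs =>
    (Real.hasDerivAt_rpow_const (Or.inl hs.ne')).const_mul _
  have key := image_norm_le_of_norm_deriv_right_le_deriv_boundary' (a := te) (b := T₁)
    (f := fun s : ℝ => θ (Y (vt ξ (p + s))) - θ (Y (vt ξ (p + te))))
    (f' := fun s => g (Y (vt ξ (p + s))) * deriv Y (vt ξ (p + s)) * -Complex.I)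
    (fun s hs => (hd s (hte.trans_le hs.1)).continuousAt.continuousWithinAt)
    (fun s hs => (hd s (hte.trans_le hs.1)).hasDerivWithinAt)
    (B := fun s : ℝ => A / W * s ^ (1 - ε)) (B' := fun s => A / W * ((1 - ε) * s ^ (1 - ε - 1)))
    (by simp; positivity)
    (fun s hs => (hb s (hte.trans_le hs.1)).continuousAt.continuousWithinAt)
    (fun s hs => (hb s (hte.trans_le hs.1)).hasDerivWithinAt)
    (fun s hs => by
      have hs0 : 0 < s := hte.trans_le hs.1
      have hs1 : 1 ≤ Real.log (3 * B ^ 2 / s) := la1 hB hs0 (hs.2.le.trans hT)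
      have h1 := hdl s ⟨hs.1, hs.2.le⟩
      have h2 : ‖dl g Y W (vt ξ (p + s))‖ =
          W * ‖g (Y (vt ξ (p + s))) * deriv Y (vt ξ (p + s))‖ / 2 := by
        unfold dl
        rw [norm_div, mul_assoc, norm_mul, Complex.norm_real, Real.norm_of_nonneg hW.le]
        simp
      have h3 := Real.log_le_rpow_div (x := 3 * B ^ 2 / s) (ε := ε / 2) (by positivity)
        (by positivity)
      have h4 : Real.log (3 * B ^ 2 / s) ^ 2 ≤ ((3 * B ^ 2 / s) ^ (ε / 2) / (ε / 2)) ^ 2 := by
        gcongr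
      have h5 : ((3 * B ^ 2 / s) ^ (ε / 2) / (ε / 2)) ^ 2 =
          4 / ε ^ 2 * (3 * B ^ 2) ^ ε * s ^ (1 - ε - 1) := by
        rw [div_pow, ← Real.rpow_natCast ((3 * B ^ 2 / s) ^ (ε / 2)),
          ← Real.rpow_mul (by positivity), show ε / 2 * ((2 : ℕ) : ℝ) = ε by push_cast; ring,
          Real.div_rpow (by positivity) hs0.le, show 1 - ε - 1 = -ε by ring,
          Real.rpow_neg hs0.le]
        field_simp
        ring
      have h6 : 0 < s ^ (1 - ε - 1) := by positivity
      rw [norm_mul, norm_neg, Complex.norm_I, mul_one, div_mul_eq_mul_div, le_div_iff₀ hW]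
      have h7 : 1000 * (4 / ε ^ 2 * (3 * B ^ 2) ^ ε * s ^ (1 - ε - 1)) =
          A * s ^ (1 - ε - 1) / 4 := by rw [hA]; ring
      have h8 : 0 < A * s ^ (1 - ε - 1) := by positivity
      rw [h5] at h4
      rw [h2] at h1
      nlinarith)
    ht
  rw [div_mul_eq_mul_div, le_div_iff₀ hW] at key
  exact key

end Vale.Agent.P097F.NC
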