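import Vale.Agent.P097F.NC.Defs
import Vale.Agent.P097U.Hall

/-!
# P097F.NC: the lemma of Hall in the cone
-/

set_option linter.all false

noncomputable section

namespace Vale.Agent.P097F.NC

open Filter Topology Set Metric MeasureTheory

namespace Hl

/-- the centre of the disc -/
def cen (ye : ℂ) (R : ℝ) : ℂ := ⟨ye.re, -(1 / 64 + R)⟩

lemma nsq (ye z : ℂ) (R : ℝ) :
    ‖z - cen ye R‖ ^ 2 = (z.re - ye.re) ^ 2 + (z.im + (1 / 64 + R)) ^ 2 := by
  rw [Complex.sq_norm, Complex.normSq_apply]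
  simp only [cen, Complex.sub_re, Complex.sub_im]
  ring

lemma nsq' (ye z : ℂ) : ‖z - ye‖ ^ 2 = (z.re - ye.re) ^ 2 + (z.im - ye.im) ^ 2 := by
  rw [Complex.sq_norm, Complex.normSq_apply]
  simp only [Complex.sub_re, Complex.sub_im]
  ring

lemma im_le {ye z : ℂ} {R : ℝ} (hz : z ∈ closedBall (cen ye R) R) : z.im ≤ -1 / 64 := by
  have h1 : ‖z - cen ye R‖ ≤ R := mem_closedBall_iff_norm.1 hz
  have h2 := (le_abs_self _).trans ((Complex.abs_im_le_norm (z - cen ye R)).trans h1)
  simp only [cen, Complex.sub_im] at h2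
  linarith

lemma mem {ye z : ℂ} {R t : ℝ} (hy : ye.im = -1 / 32) (ht : 1 / 16 ≤ t) (hR : 400 * t ^ 2 ≤ R)
    (h1 : z.im ≤ -1 / 32) (h2 : ‖z - ye‖ ≤ t) : z ∈ ball (cen ye R) R := by
  have R0 : 0 < R := lt_of_lt_of_le (by positivity) hR
  rw [mem_ball_iff_norm]
  refine lt_of_pow_lt_pow_left₀ 2 R0.le ?_
  have h3 := pow_le_pow_left₀ (norm_nonneg _) h2 2
  have h4 := (Complex.abs_im_le_norm (z - ye)).trans h2
  rw [nsq', hy] at h3
  rw [Complex.sub_im, hy, abs_le] at h4
  rw [nsq]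
  have h5 : R / 32 ≤ 2 * R * (-z.im - 1 / 64) := by nlinarith
  nlinarith

lemma ht_bd {ye z : ℂ} {R t a : ℝ} (ha : 0 ≤ a) (ht : 1 / 16 ≤ t)
    (hR : R = 100 * (a + 2) ^ 2 * t ^ 2) (h1 : 7 * t / 8 ≤ -z.im) (h2 : -z.im ≤ 9 * t / 8)
    (h3 : |z.re - ye.re| ≤ (a + 1 / 8) * t) :
    t / 4 ≤ P097U.ht (cen ye R) R z ∧ P097U.ht (cen ye R) R z ≤ 5 * t / 4 := by
  have t0 : 0 < t := by linarith
  have R0 : 0 < R := by rw [hR]; positivity
  have e : P097U.ht (cen ye R) R z =
      (-z.im - 1 / 64) - ((-z.im - 1 / 64) ^ 2 + (z.re - ye.re) ^ 2) / (2 * R) := by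
    unfold P097U.ht
    rw [nsq]
    field_simp
    ring
  have e1 : (z.re - ye.re) ^ 2 ≤ ((a + 1 / 8) * t) ^ 2 := by
    rw [← sq_abs]
    exact pow_le_pow_left₀ (abs_nonneg _) h3 2
  have e2 : (-z.im - 1 / 64) ^ 2 ≤ (9 * t / 8) ^ 2 :=
    pow_le_pow_left₀ (by linarith) (by linarith) 2
  have e3 : ((-z.im - 1 / 64) ^ 2 + (z.re - ye.re) ^ 2) / (2 * R) ≤ 1 / 200 := by
    rw [div_le_iff₀ (by positivity), hR]
    nlinarith [mul_nonneg ha (sq_nonneg t), sq_nonneg t]
  have e4 : 0 ≤ ((-z.im - 1 / 64) ^ 2 + (z.re - ye.re) ^ 2) / (2 * R) := by positivity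
  rw [e]
  constructor <;> linarith

end Hl

open Hl in
theorem hall : S_HALL := by
  intro g θ γ M a m α β t₀ R ye z₀ Γ hθ hA γ0 M1 a0 m0 m1 hy ht t1 hx hR hP
  have t0 : 0 < t₀ := by linarith
  have R1 : 400 * t₀ ^ 2 ≤ R := by
    rw [hR]
    nlinarith [mul_nonneg (mul_nonneg a0 (show 0 ≤ a + 4 by linarith)) (sq_nonneg t₀)]
  have R2 : 1 ≤ R := by nlinarith
  have R0 : 0 < R := by linarith
  set c := cen ye R with hc
  set B := (1 + ‖ye‖ + 2 * R) ^ γ with hB
  have B1 : 1 ≤ B := Real.one_le_rpow (by linarith [norm_nonneg ye]) γ0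
  set Mb := 128 * R * M * B with hMb
  have Mb1 : 1 ≤ Mb := by
    have : 1 ≤ M * B := one_le_mul_of_one_le_of_one_le M1 B1
    rw [hMb]
    nlinarith
  have yin : ye ∈ closedBall c R :=
    ball_subset_closedBall (mem hy t1 R1 hy.le (by simp [t0.le]))
  have dist2 : ∀ z ∈ closedBall c R, ‖z - ye‖ ≤ 2 * R := fun z hz => by
    have := dist_triangle_right z ye c
    rw [dist_eq_norm] at this
    linarith [mem_closedBall.1 hz, mem_closedBall.1 yin]
  let f : ℂ → ℂ := fun z => θ z - θ ye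
  have hd : ∀ z ∈ closedBall c R, HasDerivAt f (g z) z := fun z hz =>
    (hθ z (by linarith [im_le hz])).sub_const _
  have hg : ∀ z ∈ closedBall c R, ‖g z‖ ≤ 64 * M * B := fun z hz => by
    have h1 := im_le hz
    have h2 := hA z (by linarith)
    have h3 : (1 + ‖z‖) ^ γ ≤ B := by
      refine Real.rpow_le_rpow (by positivity) ?_ γ0
      have := norm_add_le (z - ye) ye
      rw [sub_add_cancel] at this
      linarith [dist2 z hz]
    have h4 := mul_le_mul_of_nonneg_left h3 (zero_le_one.trans M1)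
    nlinarith [norm_nonneg (g z)]
  have hf : ∀ z ∈ closedBall c R, ‖f z‖ ≤ Mb := fun z hz => by
    have := (convex_closedBall c R).norm_image_sub_le_of_norm_hasDerivWithin_le
      (fun z hz => (hd z hz).hasDerivWithinAt) hg yin hz
    have e : f ye = 0 := sub_self _
    rw [e, sub_zero] at this
    refine this.trans ((mul_le_mul_of_nonneg_left (dist2 z hz) (by positivity)).trans_eq ?_)
    rw [hMb]
    ring
  have dc : DiffContOnCl ℂ f (ball c R) := by
    refine DifferentiableOn.diffContOnCl ?_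
    rw [closure_ball c R0.ne']
    exact fun z hz => (hd z hz).differentiableAt.differentiableWithinAt
  have hE : Γ '' Icc α β ⊆ ball c R := by
    rintro _ ⟨s, hs, rfl⟩
    exact mem hy t1 R1 (hP.ins s hs).1 (hP.ins s hs).2.1
  have hl : ENNReal.ofReal t₀ ≤ volume ((fun z : ℂ => ‖z - ye‖) '' (Γ '' Icc α β)) := by
    have := intermediate_value_Icc hP.le (f := fun s => ‖Γ s - ye‖)
      (hP.cont.sub continuousOn_const).norm
    simp only [hP.st, hP.en, sub_self, norm_zero] at this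
    rw [image_image]
    refine le_trans (le_of_eq ?_) (measure_mono this)
    rw [Real.volume_Icc, sub_zero]
  set ω := 1 / (960 * (a + 6) ^ 2) with hω
  have ω0 : 0 ≤ ω := by positivity
  have ω1 : ω ≤ 1 := by
    rw [hω, div_le_one (by positivity)]
    nlinarith
  have key : ∀ z ∈ closedBall z₀ (t₀ / 8), z ∈ ball c R ∧ ‖f z‖ ≤ m ^ ω * Mb := fun z hz => by
    have h0 : ‖z - z₀‖ ≤ t₀ / 8 := mem_closedBall_iff_norm.1 hz
    have h1 := (Complex.abs_im_le_norm (z - z₀)).trans h0
    have h2 := (Complex.abs_re_le_norm (z - z₀)).trans h0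
    rw [Complex.sub_im, abs_le] at h1
    rw [Complex.sub_re] at h2
    have h3 : |z.re - ye.re| ≤ (a + 1 / 8) * t₀ := by
      have := abs_sub_le z.re z₀.re ye.re
      linarith
    obtain ⟨k1, k2⟩ := ht_bd a0 t1 hR (z := z) (ye := ye) (by linarith) (by linarith) h3
    rw [← hc] at k1 k2
    have zin : z ∈ ball c R := by
      rw [mem_ball_iff_norm]
      refine lt_of_pow_lt_pow_left₀ 2 R0.le ?_
      have : 0 < P097U.ht c R z := by linarith
      unfold P097U.ht at this
      linarith [(div_pos_iff_of_pos_right (show 0 < 2 * R by positivity)).1 this]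
    refine ⟨zin, (P097U.hall_disc (D := (a + 3) * t₀) (ω := ω) dc
      (fun z hz => hf z (ball_subset_closedBall hz)) m0 (m1.trans Mb1) (fun z : ℂ => ‖z - ye‖)
      (fun z w => ?_) hE ?_ hl zin ?_ ω1 ?_).trans ?_⟩
    · simpa using abs_norm_sub_norm_le (z - ye) (w - ye)
    · rintro _ ⟨s, hs, rfl⟩
      exact (hP.ins s hs).2.2
    · rintro _ ⟨s, hs, rfl⟩
      have e1 := (hP.ins s hs).2.1
      have e2 := Complex.norm_le_abs_re_add_abs_im (z - ye)
      have e3 : |(z - ye).im| ≤ 9 * t₀ / 8 := by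
        rw [Complex.sub_im, hy, abs_le]
        constructor <;> linarith
      have e4 := norm_sub_le (z - ye) (Γ s - ye)
      rw [sub_sub_sub_cancel_right] at e4
      rw [Complex.sub_re] at e2
      linarith
    · have e1 : (a + 3) * t₀ + 2 * P097U.ht c R z ≤ (a + 6) * t₀ := by linarith
      have e2 : 0 < (a + 3) * t₀ + 2 * P097U.ht c R z := by nlinarith
      have e3 : 0 ≤ P097U.ht c R z := by linarith
      calc ω = t₀ * (t₀ / 4 / (240 * ((a + 6) * t₀) ^ 2)) := by
            rw [hω]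
            field_simp
            ring
        _ ≤ _ := by gcongr
    · refine mul_le_mul_of_nonneg_left ?_ (by positivity)
      simpa using Real.rpow_le_rpow_of_exponent_le Mb1 (show 1 - ω ≤ 1 by linarith)
  have dz : DiffContOnCl ℂ f (ball z₀ (t₀ / 8)) := by
    refine DifferentiableOn.diffContOnCl ?_
    rw [closure_ball z₀ (by positivity)]
    exact fun z hz => (hd z (ball_subset_closedBall (key z hz).1)).differentiableAt.differentiableWithinAt
  have fin := Complex.norm_deriv_le_of_forall_mem_sphere_norm_le (by positivity) dz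
    fun z hz => (key z (sphere_subset_closedBall hz)).2
  rw [(hd z₀ (ball_subset_closedBall (key z₀ (mem_closedBall_self (by positivity))).1)).deriv,
    le_div_iff₀ (by positivity)] at fin
  linarith

end Vale.Agent.P097F.NC
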