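import Vale.Agent.P097F.NC.Defs

/-!
# P097F.NC: the lower bound for the variation of the angle, and the two a priori bounds
-/

set_option linter.all false

noncomputable section

namespace Vale.Agent.P097F.NC

open Filter Topology Set Metric

theorem apr : S_APR := by
  intro m j M hj
  have hN : (1 : ℝ) ≤ max M 1 * 128 ^ 4 := by nlinarith [le_max_right M 1]
  have h128 : (1 : ℝ) ≤ 128 ^ (m - 1) := one_le_pow₀ (by norm_num)
  refine ⟨128 ^ (m - 1) * (max M 1 * 128 ^ 4), by nlinarith, fun g hg y hy => ?_⟩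
  have hy0 : y.im < 0 := by linarith
  have H := hg y hy0
  obtain ⟨t, ht⟩ : ∃ t, t = -y.im := ⟨_, rfl⟩
  rw [← ht] at H ⊢
  have t1 : 1 / 128 ≤ t := by linarith
  have t0 : 0 < t := by linarith
  have ti : 1 / t ≤ 128 := by rw [div_le_iff₀ t0]; linarith
  obtain ⟨ρ, hρ⟩ : ∃ ρ, ρ = 1 + ‖y‖ := ⟨_, rfl⟩
  rw [← hρ]
  have n0 := norm_nonneg y
  have ρ1 : 1 ≤ ρ := by linarith
  have tρ : t ≤ ‖y‖ := by
    have := Complex.abs_im_le_norm y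
    have := neg_abs_le y.im
    linarith
  have b1 : max t (1 / t) ≤ 128 * ρ := max_le (by linarith) (by linarith)
  have b2 : 1 + |y.re| / t ≤ 128 * ρ := by
    have h1 := Complex.abs_re_le_norm y
    have h2 : |y.re| / t ≤ 128 * ‖y‖ := by
      rw [div_le_iff₀ t0]
      nlinarith [abs_nonneg y.re]
    linarith
  have b0 : 0 ≤ max t (1 / t) := le_max_of_le_left t0.le
  have b0' : 0 ≤ 1 + |y.re| / t := by positivity
  have b3 : (max t (1 / t) * (1 + |y.re| / t)) ^ 2 ≤ (128 * ρ * (128 * ρ)) ^ 2 :=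
    pow_le_pow_left₀ (by positivity) (mul_le_mul b1 b2 b0' (by positivity)) 2
  obtain ⟨D, hD⟩ : ∃ D, D = max 1 (1 / t) := ⟨_, rfl⟩
  rw [← hD] at H
  have D1 : 1 ≤ D := hD ▸ le_max_left _ _
  have D2 : D ≤ 128 := hD ▸ max_le (by norm_num) ti
  obtain ⟨N, hN'⟩ : ∃ N, N = max M 1 * 128 ^ 4 := ⟨_, rfl⟩
  rw [← hN'] at hN ⊢
  have e1 : (‖g y‖ ^ 2 * t ^ 2 / D ^ (2 * (m - 1))) ^ j = (‖g y‖ * t / D ^ (m - 1)) ^ (2 * j) := by
    rw [pow_mul (_ / _) 2 j, div_pow (‖g y‖ * t), mul_pow, ← pow_mul D, mul_comm (m - 1) 2]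
  have j0 : (j : ℝ) ≠ 0 := by
    have : (1 : ℝ) ≤ j := by exact_mod_cast hj
    linarith
  have e2 : (ρ ^ (2 / (j : ℝ))) ^ (2 * j) = ρ ^ 4 := by
    rw [← Real.rpow_natCast, ← Real.rpow_mul (by linarith), ← Real.rpow_natCast]
    congr 1
    push_cast
    field_simp
    norm_num
  have r0 : 0 ≤ ρ ^ (2 / (j : ℝ)) := Real.rpow_nonneg (by linarith) _
  have H2 : (‖g y‖ * t / D ^ (m - 1)) ^ (2 * j) ≤ (N * ρ ^ (2 / (j : ℝ))) ^ (2 * j) := by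
    rw [← e1, mul_pow N, e2]
    have h1 : N ≤ N ^ (2 * j) := le_self_pow₀ hN (by omega)
    have h2 : M * (max t (1 / t) * (1 + |y.re| / t)) ^ 2 ≤ max M 1 * (128 * ρ * (128 * ρ)) ^ 2 :=
      mul_le_mul (le_max_left _ _) b3 (sq_nonneg _) (le_max_of_le_right zero_le_one)
    calc _ ≤ _ := H
      _ ≤ _ := h2
      _ = N * ρ ^ 4 := by rw [hN']; ring
      _ ≤ _ := by gcongr
  have H3 := le_of_pow_le_pow_left₀ (by omega) (by positivity) H2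
  rw [div_le_iff₀ (by positivity)] at H3
  have h4 : D ^ (m - 1) ≤ 128 ^ (m - 1) := pow_le_pow_left₀ (by linarith) D2 _
  calc _ ≤ _ := H3
    _ ≤ N * ρ ^ (2 / (j : ℝ)) * 128 ^ (m - 1) := by gcongr
    _ = _ := by ring

lemma low_pt {g : ℂ → ℂ} {a c γ M : ℝ} {ye z : ℂ} {t : ℝ} (ha : 0 ≤ a) (hc : 0 < c) (hM : 1 ≤ M)
    (hAP : AP g γ M) (γ0 : 0 ≤ γ) (γ1 : γ ≤ 1 / 16) (ht : t = -z.im) (hz1 : 1 / 16 ≤ t)
    (hz2 : |z.re - ye.re| ≤ a * t) (hz3 : c ^ 4 * (1 / 16) ^ 3 ≤ ‖g z‖ ^ 4 * t ^ 3) :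
    t ≤ 4096 ^ 2 * M ^ 8 * (a + 17) / c ^ 8 * ((1 + ‖ye‖) ^ γ) ^ 8 ∧ c / 16 ≤ ‖g z‖ * t := by
  have M0 : 0 < M := by linarith
  obtain ⟨ρ, hρ⟩ : ∃ ρ, ρ = 1 + ‖ye‖ := ⟨_, rfl⟩
  rw [← hρ]
  have n0 := norm_nonneg ye
  have ρ1 : 1 ≤ ρ := by linarith
  have ρ0 : 0 < ρ := by linarith
  have t0 : 0 < t := by linarith
  have H1 := hAP z (by linarith)
  rw [← ht] at H1
  have at0 : 0 ≤ a * t := by positivity
  have hz : 1 + ‖z‖ ≤ ρ * ((a + 17) * t) := by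
    have h1 := Complex.norm_le_abs_re_add_abs_im z
    have h2 : |z.im| = t := by rw [ht, abs_of_neg (by linarith)]
    have h3 : |z.re| ≤ |z.re - ye.re| + |ye.re| := by
      simpa using abs_add_le (z.re - ye.re) ye.re
    have h4 := Complex.abs_re_le_norm ye
    have h5 : 1 * ((a + 1) * t) ≤ ρ * ((a + 1) * t) := by gcongr
    have h6 : ρ * 1 ≤ ρ * (16 * t) := by gcongr; linarith
    have h7 : ρ * ((a + 17) * t) = ρ * ((a + 1) * t) + ρ * (16 * t) := by ring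
    linarith
  have s1 : 1 ≤ (a + 17) * t := by linarith
  have H2 : (1 + ‖z‖) ^ γ ≤ ρ ^ γ * ((a + 17) * t) ^ (1 / 8 : ℝ) := by
    calc (1 + ‖z‖) ^ γ ≤ (ρ * ((a + 17) * t)) ^ γ :=
          Real.rpow_le_rpow (by positivity) hz γ0
      _ = ρ ^ γ * ((a + 17) * t) ^ γ := Real.mul_rpow ρ0.le (by linarith)
      _ ≤ _ := mul_le_mul_of_nonneg_left (Real.rpow_le_rpow_of_exponent_le s1 (by linarith))
          (Real.rpow_nonneg ρ0.le _)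
  have u0 : 0 < ρ ^ γ := Real.rpow_pos_of_pos ρ0 _
  generalize ρ ^ γ = u at H2 u0 ⊢
  have e8 : (((a + 17) * t) ^ (1 / 8 : ℝ)) ^ 8 = (a + 17) * t := by
    rw [← Real.rpow_natCast, ← Real.rpow_mul (by linarith)]
    norm_num
  have G0 : 0 ≤ ‖g z‖ * t := by positivity
  have g4 : c ^ 4 * t / 4096 ≤ (‖g z‖ * t) ^ 4 :=
    calc c ^ 4 * t / 4096 = c ^ 4 * (1 / 16) ^ 3 * t := by ring
      _ ≤ ‖g z‖ ^ 4 * t ^ 3 * t := mul_le_mul_of_nonneg_right hz3 t0.le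
      _ = _ := by ring
  have h1 := H1.trans (mul_le_mul_of_nonneg_left H2 M0.le)
  generalize ‖g z‖ * t = G at G0 g4 h1 ⊢
  have g8 : G ^ 8 ≤ M ^ 8 * u ^ 8 * ((a + 17) * t) :=
    calc G ^ 8 ≤ _ := pow_le_pow_left₀ G0 h1 8
      _ = _ := by rw [mul_pow, mul_pow, e8]; ring
  constructor
  · have h1 : (c ^ 4 * t / 4096) ^ 2 ≤ (G ^ 4) ^ 2 := pow_le_pow_left₀ (by positivity) g4 2
    have h2 : c ^ 8 * t * t ≤ 4096 ^ 2 * M ^ 8 * (a + 17) * u ^ 8 * t :=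
      calc c ^ 8 * t * t = 4096 ^ 2 * (c ^ 4 * t / 4096) ^ 2 := by ring
        _ ≤ 4096 ^ 2 * (G ^ 4) ^ 2 := by gcongr
        _ = 4096 ^ 2 * G ^ 8 := by ring
        _ ≤ 4096 ^ 2 * (M ^ 8 * u ^ 8 * ((a + 17) * t)) := by gcongr
        _ = _ := by ring
    have h3 := le_of_mul_le_mul_right h2 t0
    rw [div_mul_eq_mul_div, le_div_iff₀ (by positivity)]
    linarith
  · refine le_of_pow_le_pow_left₀ (n := 4) (by norm_num) G0 (le_trans ?_ g4)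
    calc (c / 16) ^ 4 = c ^ 4 * (1 / 16) / 4096 := by ring
      _ ≤ _ := by gcongr

theorem low (hH : S_HALL) : S_LOW := by
  intro a c ha hc
  refine ⟨1 / (960 * (a + 6) ^ 2), by positivity, ?_, fun M hM => ?_⟩
  · rw [div_le_one (by positivity)]
    nlinarith
  obtain ⟨C₁, hC₁⟩ : ∃ C₁, C₁ = 4096 ^ 2 * M ^ 8 * (a + 17) / c ^ 8 := ⟨_, rfl⟩
  obtain ⟨C₂, hC₂⟩ : ∃ C₂, C₂ = 100 * (a + 2) ^ 2 * C₁ ^ 2 := ⟨_, rfl⟩
  have M0 : 0 < M := by linarith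
  have C₁0 : 0 < C₁ := by rw [hC₁]; positivity
  have C₂0 : 0 < C₂ := by rw [hC₂]; positivity
  refine ⟨max 1 (max C₁ (16384 * M * C₂ * (1 + 2 * C₂) / c)), le_max_left _ _, ?_⟩
  intro g θ γ ye hθ hAP hA γ0 γ1 hye
  obtain ⟨z, hz1, hz2, hz3⟩ := hA ye.re (1 / 16) (by norm_num) le_rfl
  obtain ⟨t, ht⟩ : ∃ t, t = -z.im := ⟨_, rfl⟩
  rw [← ht] at hz1 hz2 hz3
  obtain ⟨hT, hG1⟩ := low_pt ha hc hM hAP γ0 γ1 ht hz1 hz2 hz3
  rw [← hC₁] at hT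
  obtain ⟨ρ, hρ⟩ : ∃ ρ, ρ = 1 + ‖ye‖ := ⟨_, rfl⟩
  have n0 := norm_nonneg ye
  have ρ1 : 1 ≤ ρ := by linarith
  have ρ0 : 0 < ρ := by linarith
  have t0 : 0 < t := by linarith
  obtain ⟨u, hu⟩ : ∃ u, u = ρ ^ γ := ⟨_, rfl⟩
  rw [← hρ, ← hu] at hT
  have u0 : 0 < u := hu ▸ Real.rpow_pos_of_pos ρ0 _
  have pw : ∀ k : ℕ, ρ ^ (k * γ) = u ^ k := fun k => by
    rw [hu, mul_comm, Real.rpow_mul ρ0.le, Real.rpow_natCast]
  have p8 : ρ ^ (8 * γ) = u ^ 8 := by simpa using pw 8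
  have p16 : ρ ^ (16 * γ) = u ^ 16 := by simpa using pw 16
  have p17 : ρ ^ (17 * γ) = u ^ 17 := by simpa using pw 17
  refine ⟨t, hz1, ?_, fun m α β Γ m0 m1 hP => ?_⟩
  · rw [← hρ, p8]
    exact hT.trans (mul_le_mul_of_nonneg_right (le_max_of_le_right (le_max_left _ _))
      (by positivity))
  obtain ⟨R, hR⟩ : ∃ R, R = 100 * (a + 2) ^ 2 * t ^ 2 := ⟨_, rfl⟩
  have H3 := hH g θ γ M a m α β t R ye z Γ hθ hAP γ0 hM ha m0 m1 hye ht hz1 hz2 hR hP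
  rw [← hρ] at H3
  rw [← hρ, p17]
  have R0 : 0 ≤ R := by rw [hR]; positivity
  have R1 : R ≤ C₂ * u ^ 16 := by
    have h1 : t ^ 2 ≤ (C₁ * u ^ 8) ^ 2 := pow_le_pow_left₀ t0.le hT 2
    calc R = 100 * (a + 2) ^ 2 * t ^ 2 := hR
      _ ≤ 100 * (a + 2) ^ 2 * (C₁ * u ^ 8) ^ 2 := mul_le_mul_of_nonneg_left h1 (by positivity)
      _ = _ := by rw [hC₂]; ring
  have R2 : R ≤ C₂ * ρ := by
    refine R1.trans (mul_le_mul_of_nonneg_left ?_ C₂0.le)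
    rw [← p16]
    simpa using Real.rpow_le_rpow_of_exponent_le ρ1 (show 16 * γ ≤ 1 by linarith)
  have R3 : (ρ + 2 * R) ^ γ ≤ u * (1 + 2 * C₂) := by
    calc (ρ + 2 * R) ^ γ ≤ (ρ * (1 + 2 * C₂)) ^ γ :=
          Real.rpow_le_rpow (by positivity) (by linarith) γ0
      _ = u * (1 + 2 * C₂) ^ γ := by rw [Real.mul_rpow ρ0.le (by positivity), hu]
      _ ≤ _ := mul_le_mul_of_nonneg_left (by
          simpa using Real.rpow_le_rpow_of_exponent_le (show 1 ≤ 1 + 2 * C₂ by linarith)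
            (show γ ≤ 1 by linarith)) u0.le
  have w0 : 0 < m ^ (1 / (960 * (a + 6) ^ 2)) := Real.rpow_pos_of_pos m0 _
  generalize m ^ (1 / (960 * (a + 6) ^ 2)) = w at H3 w0 ⊢
  have r0 : 0 ≤ (ρ + 2 * R) ^ γ := Real.rpow_nonneg (by positivity) _
  generalize (ρ + 2 * R) ^ γ = q at H3 r0 R3
  have H4 : c / 16 ≤ 8 * w * (128 * (C₂ * u ^ 16) * M * (u * (1 + 2 * C₂))) :=
    hG1.trans (H3.trans (by gcongr))
  have H5 : 1 ≤ 16384 * M * C₂ * (1 + 2 * C₂) / c * w * u ^ 17 := by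
    rw [div_mul_eq_mul_div, div_mul_eq_mul_div, le_div_iff₀ hc]
    calc 1 * c = 16 * (c / 16) := by ring
      _ ≤ 16 * (8 * w * (128 * (C₂ * u ^ 16) * M * (u * (1 + 2 * C₂)))) := by gcongr
      _ = _ := by ring
  refine H5.trans ?_
  gcongr
  exact le_max_of_le_right (le_max_right _ _)

end Vale.Agent.P097F.NC
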