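import Vale.Agent.P097F.NC.Defs
import Vale.Agent.P097M.Har

/-!
# P097F.NC: sizes on the vertical above the anchor
-/

set_option linter.all false

noncomputable section

namespace Vale.Agent.P097F.NC

open Filter Topology Set Metric

namespace Size

theorem im_lt {ξ p s : ℝ} {z : ℂ} (hz : z ∈ ball (vt ξ (p + s)) s) : z.im < -p := by
  rw [mem_ball, dist_eq_norm] at hz
  have h := (le_abs_self _).trans (Complex.abs_im_le_norm (z - vt ξ (p + s)))
  simp only [Complex.sub_im, vt_im] at h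
  linarith

theorem hh {g Y : ℂ → ℂ} {W p ξ s : ℝ} (L : Lf g W p Y) {z : ℂ} (hz : z ∈ ball (vt ξ (p + s)) s) :
    -(Y (vt ξ (p + s))).im * (s - ‖z - vt ξ (p + s)‖) ≤ (s + ‖z - vt ξ (p + s)‖) * -(Y z).im ∧
    ‖Y z - Y (vt ξ (p + s))‖ * (s - ‖z - vt ξ (p + s)‖) ≤
      2 * ‖z - vt ξ (p + s)‖ * -(Y (vt ξ (p + s))).im := by
  have hd : DifferentiableOn ℂ (fun x => Complex.I * Y x) (ball (vt ξ (p + s)) s) :=
    (L.dY.mono fun x hx => im_lt hx).const_mul _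
  have hp : ∀ x ∈ ball (vt ξ (p + s)) s, 0 ≤ (Complex.I * Y x).re := fun x hx => by
    have h1 := im_lt hx
    have h2 := L.pos x h1
    simp
    linarith
  obtain ⟨-, h2, h3⟩ := P097M.har _ _ _ hd hp z hz
  rw [← mul_sub, norm_mul, Complex.norm_I, one_mul] at h3
  simp only [Complex.mul_re, Complex.I_re, Complex.I_im, zero_mul, one_mul, zero_sub] at h2 h3
  exact ⟨h2, h3⟩

theorem vt_sub (ξ a b : ℝ) : ‖vt ξ a - vt ξ b‖ = |a - b| := by
  have : vt ξ a - vt ξ b = ((b - a : ℝ) : ℂ) * Complex.I := by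
    apply Complex.ext <;> simp
    ring
  rw [this, norm_mul, Complex.norm_I, mul_one, Complex.norm_real, Real.norm_eq_abs, abs_sub_comm]

theorem vt_norm (ξ a : ℝ) : ‖vt ξ a‖ ≤ |ξ| + |a| := by
  have := Complex.norm_le_abs_re_add_abs_im (vt ξ a)
  simpa using this

/-- the distance to the anchor value -/
theorem far {g Y : ℂ → ℂ} {W p B ξ T r : ℝ} (L : Lf g W p Y) (hp : 0 ≤ p) (hT : T ≤ B)
    (ha : ‖Y (vt ξ T) - vt ξ T‖ ≤ T / 2) (hr : 0 < r) {z : ℂ} (hz : ‖z - vt ξ T‖ ≤ T - p - r) :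
    ‖Y z - Y (vt ξ T)‖ * r ≤ 3 * B ^ 2 := by
  have e : p + (T - p) = T := by ring
  have n0 := norm_nonneg (z - vt ξ T)
  have hz' : z ∈ ball (vt ξ (p + (T - p))) (T - p) := by
    rw [e, mem_ball, dist_eq_norm]
    linarith
  have h := (hh L hz').2
  rw [e] at h
  have hd : -(Y (vt ξ T)).im ≤ 3 * T / 2 := by
    have h1 := (neg_le_abs _).trans (Complex.abs_im_le_norm (Y (vt ξ T) - vt ξ T))
    simp only [Complex.sub_im, vt_im] at h1
    linarith
  have T0 : 0 ≤ T := by linarith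
  have h1 : ‖Y z - Y (vt ξ T)‖ * r ≤ ‖Y z - Y (vt ξ T)‖ * (T - p - ‖z - vt ξ T‖) :=
    mul_le_mul_of_nonneg_left (by linarith) (norm_nonneg _)
  have h2 : 2 * ‖z - vt ξ T‖ * -(Y (vt ξ T)).im ≤ 2 * ‖z - vt ξ T‖ * (3 * T / 2) :=
    mul_le_mul_of_nonneg_left hd (by positivity)
  have h3 : 2 * ‖z - vt ξ T‖ * (3 * T / 2) ≤ 2 * T * (3 * T / 2) :=
    mul_le_mul_of_nonneg_right (by linarith) (by positivity)
  have h4 : T ^ 2 ≤ B ^ 2 := by gcongr
  nlinarith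

theorem fin (S : S_SIM) {δ u : ℂ} {X : ℝ} (hX : 1 ≤ X)
    (h : 24 * (Complex.sin δ - δ * Complex.cos δ) = u ^ 3) (hu : ‖u‖ ≤ 912 * X ^ 3) :
    |δ.im| ≤ 20 * Real.log (3 * X) := by
  have h1 := S δ
  have h2 := congrArg norm h
  rw [norm_mul, norm_pow] at h2
  have h24 : ‖(24 : ℂ)‖ = 24 := by simp
  rw [h24] at h2
  have h3 : ‖u‖ ^ 3 ≤ (912 * X ^ 3) ^ 3 := by gcongr
  have h4 : X ^ 9 ≤ X ^ 20 := pow_le_pow_right₀ hX (by norm_num)
  have h5 : 1 ≤ X ^ 20 := one_le_pow₀ hX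
  have h6 : Real.exp |δ.im| ≤ (3 * X) ^ 20 := by
    have e1 : (912 * X ^ 3) ^ 3 = 758550528 * X ^ 9 := by ring
    have e2 : (3 * X) ^ 20 = 3486784401 * X ^ 20 := by ring
    rw [e1] at h3
    rw [e2]
    linarith
  have h7 := Real.log_le_log (Real.exp_pos _) h6
  rw [Real.log_exp, Real.log_pow] at h7
  simpa using h7

end Size

open Size in
theorem size (S : S_SIM) : S_SIZE := by
  intro g Y W p γ M B ξ T t L A g0 g1 M1 MB W1 WB hp hT hξ ha ht htT
  have e1 : ‖vt ξ (p + t) - vt ξ T‖ = T - p - t := by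
    rw [vt_sub, abs_of_nonpos (by linarith)]
    ring
  refine ⟨far L hp hT ha ht e1.le, fun hy z hz => ?_⟩
  have B1 : 1 ≤ B := M1.trans MB
  have hz0 : ‖z - vt ξ (p + t)‖ < t / 2 := by rwa [mem_ball, dist_eq_norm] at hz
  have n0 := norm_nonneg (z - vt ξ (p + t))
  have hz1 : z ∈ ball (vt ξ (p + t)) t := ball_subset_ball (by linarith) hz
  have hz2 : ‖z - vt ξ T‖ ≤ T - p - t / 2 := by
    have := norm_sub_le_norm_sub_add_norm_sub z (vt ξ (p + t)) (vt ξ T)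
    linarith
  have f1 := far L hp hT ha (half_pos ht) hz2
  have zi := im_lt hz1
  have yi : 0 ≤ -(Y z).im := by
    have := L.pos z zi
    linarith
  have d1 : 1 / 96 ≤ -(Y z).im := by
    have h := (hh L hz1).1
    have h1 : 1 / 32 * (t / 2) ≤ -(Y (vt ξ (p + t))).im * (t - ‖z - vt ξ (p + t)‖) :=
      mul_le_mul (by linarith) (by linarith) (by positivity) (by linarith)
    have h2 : (t + ‖z - vt ξ (p + t)‖) * -(Y z).im ≤ (3 * t / 2) * -(Y z).im :=
      mul_le_mul_of_nonneg_right (by linarith) yi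
    have h3 : t * (1 / 96) ≤ t * -(Y z).im := by linarith
    exact le_of_mul_le_mul_left h3 ht
  set X : ℝ := B ^ 2 / t with hX
  have T0 : 0 ≤ T := by linarith
  have XB : B ≤ X := by
    rw [hX, le_div_iff₀ ht]
    nlinarith
  have X1 : 1 ≤ X := B1.trans XB
  have f2 : ‖Y z - Y (vt ξ T)‖ ≤ 6 * X := by
    rw [hX, ← mul_div_assoc, le_div_iff₀ ht]
    linarith
  have f3 : 1 + ‖Y z‖ ≤ 19 / 2 * X := by
    have h1 := norm_le_norm_add_norm_sub' (Y z) (Y (vt ξ T))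
    have h2 := norm_le_norm_add_norm_sub' (Y (vt ξ T)) (vt ξ T)
    have h3 := vt_norm ξ T
    rw [abs_of_nonneg T0] at h3
    linarith
  have a1 := A (Y z) (by linarith)
  have a2 : (1 + ‖Y z‖) ^ γ ≤ 1 + ‖Y z‖ := by
    have := Real.rpow_le_rpow_of_exponent_le (x := 1 + ‖Y z‖) (by linarith [norm_nonneg (Y z)]) g1
    rwa [Real.rpow_one] at this
  have a3 : ‖g (Y z)‖ * (1 / 96) ≤ X * (19 / 2 * X) := by
    refine (mul_le_mul_of_nonneg_left d1 (norm_nonneg _)).trans (a1.trans ?_)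
    exact mul_le_mul (MB.trans XB) (a2.trans f3) (by positivity) (by linarith)
  have a4 : ‖(W : ℂ) * g (Y z)‖ ≤ 912 * X ^ 3 := by
    rw [norm_mul, Complex.norm_real, Real.norm_eq_abs, abs_of_nonneg (by linarith)]
    have h1 : ‖g (Y z)‖ ≤ 912 * X ^ 2 := by nlinarith
    calc W * ‖g (Y z)‖ ≤ X * (912 * X ^ 2) :=
          mul_le_mul (WB.trans XB) h1 (norm_nonneg _) (by linarith)
      _ = 912 * X ^ 3 := by ring
  have := fin S X1 (L.md z zi) a4
  rwa [hX, ← mul_div_assoc] at this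

end Vale.Agent.P097F.NC
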