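import Vale.Agent.P097F.NC.Defs

/-!
# P097F.NC: the block from the statement on one vertical (row 2707)
-/

set_option linter.all false

noncomputable section

namespace Vale.Agent.P097F.NC

open Filter Topology Set Metric

theorem Wrap.der {g Y : ℂ → ℂ} {W p T S ξ : ℝ} (L : Lf g W p Y) (A : Anc Y T) (S0 : 0 < S)
    (pT : p ≤ T) (TS : 16 * T ≤ S) (hξ : 16 * |ξ| ≤ S) : ‖deriv Y (vt ξ S)‖ ≤ 2 := by
  have key : ∀ z ∈ closedBall (vt ξ S) (S / 16), z.im < -p ∧ ‖Y z - z‖ ≤ S / 128 := by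
    intro z hz
    rw [mem_closedBall, dist_eq_norm] at hz
    have h1 := abs_le.1 ((Complex.abs_im_le_norm _).trans hz)
    have h2 := abs_le.1 ((Complex.abs_re_le_norm _).trans hz)
    simp only [Complex.sub_im, Complex.sub_re, vt_im, vt_re] at h1 h2
    have h3 := le_abs_self ξ
    have h4 := neg_abs_le ξ
    refine ⟨by linarith, (A z (by linarith) (abs_le.2 ⟨by linarith, by linarith⟩)).trans
      (by linarith)⟩
  have op : IsOpen {x : ℂ | x.im < -p} := isOpen_lt Complex.continuous_im continuous_const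
  have dd : DifferentiableOn ℂ (fun z => Y z - z) {x : ℂ | x.im < -p} :=
    L.dY.sub differentiableOn_id
  have r0 : 0 < S / 16 := by positivity
  have c := Complex.norm_deriv_le_of_forall_mem_sphere_norm_le (C := S / 128) r0
    (dd.diffContOnCl_ball fun z hz => (key z hz).1)
    fun z hz => (key z (sphere_subset_closedBall hz)).2
  have dY : DifferentiableAt ℂ Y (vt ξ S) :=
    L.dY.differentiableAt (op.mem_nhds (key _ (mem_closedBall_self r0.le)).1)
  have e : deriv (fun z => Y z - z) (vt ξ S) = deriv Y (vt ξ S) - 1 :=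
    (dY.hasDerivAt.sub (hasDerivAt_id _)).deriv
  have e2 : S / 128 / (S / 16) = 1 / 8 := by field_simp; norm_num
  rw [e, e2] at c
  have := norm_add_le (deriv Y (vt ξ S) - 1) 1
  rw [sub_add_cancel, norm_one] at this
  linarith

theorem Wrap.sz {g : ℂ → ℂ} {γ M W S : ℝ} {y : ℂ} (A : AP g γ M) (g0 : 0 ≤ γ) (g1 : γ ≤ 1 / 4)
    (M1 : 1 ≤ M) (hW : 16 * M ^ 2 ≤ W) (hS : W ^ 2 ≤ S) (h1 : S / 2 ≤ -y.im)
    (h2 : ‖y‖ ≤ 2 * S) : W * ‖g y‖ ≤ 1 := by
  have W1 : 16 ≤ W := by nlinarith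
  have S1 : 256 ≤ S := by nlinarith
  have a := A y (by linarith)
  set q : ℝ := (3 * S) ^ ((4 : ℕ) : ℝ)⁻¹ with hq
  have q0 : 0 ≤ q := by positivity
  have q4 : q ^ 4 = 3 * S := Real.rpow_inv_natCast_pow (by linarith) (by norm_num)
  have b : (1 + ‖y‖) ^ γ ≤ q :=
    (Real.rpow_le_rpow (by positivity) (by linarith : 1 + ‖y‖ ≤ 3 * S) g0).trans
      (Real.rpow_le_rpow_of_exponent_le (by linarith) (by norm_num; linarith))
  have c : 2 * M * W * q ≤ S := by
    refine (pow_le_pow_iff_left₀ (by positivity) (by linarith) (by norm_num : (4 : ℕ) ≠ 0)).1 ?_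
    have d1 : (16 * M ^ 2) ^ 2 ≤ W ^ 2 := pow_le_pow_left₀ (by positivity) hW 2
    have d2 : (W ^ 2) ^ 3 ≤ S ^ 3 := pow_le_pow_left₀ (by positivity) hS 3
    have d3 : 48 * M ^ 4 ≤ W ^ 2 := by nlinarith [pow_nonneg (by linarith : 0 ≤ M) 4]
    have d4 : 48 * M ^ 4 * W ^ 4 ≤ S ^ 3 := by
      calc 48 * M ^ 4 * W ^ 4 ≤ W ^ 2 * W ^ 4 := mul_le_mul_of_nonneg_right d3 (by positivity)
        _ = (W ^ 2) ^ 3 := by ring
        _ ≤ S ^ 3 := d2
    calc (2 * M * W * q) ^ 4 = 16 * M ^ 4 * W ^ 4 * q ^ 4 := by ring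
      _ = 48 * M ^ 4 * W ^ 4 * S := by rw [q4]; ring
      _ ≤ S ^ 3 * S := mul_le_mul_of_nonneg_right d4 (by linarith)
      _ = S ^ 4 := by ring
  have d : ‖g y‖ * (S / 2) ≤ M * q :=
    (mul_le_mul_of_nonneg_left h1 (norm_nonneg _)).trans
      (a.trans (mul_le_mul_of_nonneg_left b (by linarith)))
  have e : W * ‖g y‖ * S ≤ 1 * S := by
    have := mul_le_mul_of_nonneg_left d (by linarith : 0 ≤ 2 * W)
    nlinarith
  exact le_of_mul_le_mul_right e (by linarith)

theorem nc_of (hC : S_CORE) (hA : S_APR) : Spec_NC := by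
  intro K m a c a0 c0
  obtain ⟨γ₀, γ0, H⟩ := hC (K + 2) a c (by omega) a0 c0
  obtain ⟨j₀, hj⟩ := exists_nat_ge (2 / min γ₀ (1 / 4))
  have m0 : 0 < min γ₀ (1 / 4) := by positivity
  refine ⟨j₀ + 1, fun j jj M => ?_⟩
  have j1 : (j₀ : ℝ) + 1 ≤ j := by exact_mod_cast jj
  have j0 : (0 : ℝ) < j := by linarith [(Nat.cast_nonneg j₀ : (0 : ℝ) ≤ j₀)]
  have γ1 : (2 : ℝ) / j ≤ min γ₀ (1 / 4) := by
    rw [div_le_iff₀ j0]
    rw [div_le_iff₀ m0] at hj
    nlinarith
  obtain ⟨M', M1, hM⟩ := hA m j M (by omega)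
  obtain ⟨W₁, HW⟩ := H (2 / j) M' (by positivity) (γ1.trans (min_le_left _ _)) M1
  refine ⟨max W₁ (16 * M' ^ 2), fun W hW g Y p T L P Ac p0 pT TW An x x1 x2 => ?_⟩
  have w1 : W₁ ≤ W := (le_max_left _ _).trans hW
  have w2 : 16 * M' ^ 2 ≤ W := (le_max_right _ _).trans hW
  have w3 : 16 ≤ W := by nlinarith
  set S : ℝ := W ^ (K + 2) with hS
  have k1 : 1 ≤ W ^ K := one_le_pow₀ (by linarith)
  have e : S = W ^ K * W ^ 2 := pow_add W K 2
  have w4 : 256 ≤ W ^ 2 := by nlinarith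
  have s1 : 256 * W ^ K ≤ S := by rw [e]; nlinarith
  have s2 : W ^ 2 ≤ S := by rw [e]; nlinarith
  have an : ‖Y (vt x.re S) - vt x.re S‖ ≤ T / 8 :=
    An _ (by simp; linarith) (by simp; linarith)
  have n1 : ‖vt x.re S‖ ≤ W ^ K + S := by
    refine (Complex.norm_le_abs_re_add_abs_im _).trans ?_
    simp only [vt_re, vt_im, abs_neg]
    rw [abs_of_nonneg (by linarith : 0 ≤ S)]
    linarith
  have n2 : ‖Y (vt x.re S)‖ ≤ 2 * S := by
    have := norm_add_le (Y (vt x.re S) - vt x.re S) (vt x.re S)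
    rw [sub_add_cancel] at this
    linarith
  have n3 : S / 2 ≤ -(Y (vt x.re S)).im := by
    have h1 := abs_le.1 ((Complex.abs_im_le_norm _).trans an)
    simp only [Complex.sub_im, vt_im] at h1
    linarith
  have z1 := Wrap.sz (hM g P) (by positivity) (γ1.trans (min_le_right _ _)) M1 w2 s2 n3 n2
  have z2 := Wrap.der (ξ := x.re) L An (S := S) (by linarith) pT (by linarith) (by linarith)
  have z3 : ‖dl g Y W (vt x.re S)‖ ≤ 1 := by
    rw [dl, norm_div, norm_mul, norm_mul, Complex.norm_real, Real.norm_of_nonneg (by linarith),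
      Complex.norm_two]
    have := mul_le_mul z1 z2 (norm_nonneg _) zero_le_one
    linarith
  by_cases h : -x.im ≤ S
  · have := HW W w1 g Y p S x.re L (hM g P) Ac p0 (by linarith) (by nlinarith) le_rfl
      (by linarith) (by linarith) z3 (-x.im - p) (by linarith) (by linarith)
    have e2 : vt x.re (p + (-x.im - p)) = x := by apply Complex.ext <;> simp
    rwa [e2] at this
  · have := L.pos x x2
    linarith

end Vale.Agent.P097F.NC
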