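import Vale.Agent.P097F.NC.Sim
import Vale.Agent.P097F.NC.Size
import Vale.Agent.P097F.NC.Dint
import Vale.Agent.P097F.NC.Hl
import Vale.Agent.P097F.NC.Low
import Vale.Agent.P097F.NC.Core
import Vale.Agent.P097F.NC.Wrap

/-!
# P097F.NC: the model leaf does not touch the top
-/

set_option linter.all false

noncomputable section

namespace Vale.Agent.P097F.NC

open Filter Topology Set Metric

theorem coreC : S_CORE := core (size sim) (dint der) var exit (low hall)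

theorem nc : Spec_NC := nc_of coreC apr

/-- one cut is enough -/
theorem act_of {g : ℂ → ℂ} {a c : ℝ} (h : ∀ s : ℝ, ∃ y : ℂ, 1 / 16 ≤ -y.im ∧
    |y.re - s| ≤ a * (-y.im) ∧ c ^ 4 * (1 / 16) ^ 3 ≤ ‖g y‖ ^ 4 * (-y.im) ^ 3) : Act g a c := by
  intro s τ t0 t1
  obtain ⟨y, h1, h2, h3⟩ := h s
  refine ⟨y, t1.trans h1, h2, le_trans ?_ h3⟩
  have : 0 ≤ c ^ 4 := by positivity
  gcongr

/-- the block with the bound `AP` -/
def Spec_NC2 : Prop := ∀ (K : ℕ) (a c : ℝ), 0 ≤ a → 0 < c → ∃ γ₀ : ℝ, 0 < γ₀ ∧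
  ∀ γ M : ℝ, 0 ≤ γ → γ ≤ γ₀ → 1 ≤ M → ∃ W₁ : ℝ, ∀ W ≥ W₁, ∀ (g Y : ℂ → ℂ) (p T : ℝ),
    Lf g W p Y → AP g γ M → Act g a c → 0 ≤ p → p ≤ T → T ≤ W ^ K → Anc Y T →
    ∀ x : ℂ, |x.re| ≤ W ^ K → x.im < -p → (Y x).im ≤ -1 / 32

theorem nc2 : Spec_NC2 := by
  intro K a c a0 c0
  obtain ⟨γ₀, γ0, H⟩ := coreC (K + 2) a c (by omega) a0 c0
  refine ⟨min γ₀ (1 / 4), by positivity, fun γ M' g0 γ1 M1 => ?_⟩
  obtain ⟨W₁, HW⟩ := H γ M' g0 (γ1.trans (min_le_left _ _)) M1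
  refine ⟨max W₁ (16 * M' ^ 2), fun W hW g Y p T L P Ac p0 pT TW An x x1 x2 => ?_⟩
  have w1 : W₁ ≤ W := (le_max_left _ _).trans hW
  have w2 : 16 * M' ^ 2 ≤ W := (le_max_right _ _).trans hW
  have w3 : 16 ≤ W := by nlinarith
  set S : ℝ := W ^ (K + 2) with hS
  have k1 : 1 ≤ W ^ K := one_le_pow₀ (by linarith)
  have e : S = W ^ K * W ^ 2 := pow_add W K 2
  have w4 : 256 ≤ W ^ 2 := by nlinarith
  have s1 : 256 * W ^ K ≤ S := by rw [e]; nlinarith
  have s2 : W ^ 2 ≤ S := by rw [e]; nlinarith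
  have an : ‖Y (vt x.re S) - vt x.re S‖ ≤ T / 8 :=
    An _ (by simp; linarith) (by simp; linarith)
  have n1 : ‖vt x.re S‖ ≤ W ^ K + S := by
    refine (Complex.norm_le_abs_re_add_abs_im _).trans ?_
    simp only [vt_re, vt_im, abs_neg]
    rw [abs_of_nonneg (by linarith : 0 ≤ S)]
    linarith
  have n2 : ‖Y (vt x.re S)‖ ≤ 2 * S := by
    have := norm_add_le (Y (vt x.re S) - vt x.re S) (vt x.re S)
    rw [sub_add_cancel] at this
    linarith
  have n3 : S / 2 ≤ -(Y (vt x.re S)).im := by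
    have h1 := abs_le.1 ((Complex.abs_im_le_norm _).trans an)
    simp only [Complex.sub_im, vt_im] at h1
    linarith
  have z1 := Wrap.sz P g0 (γ1.trans (min_le_right _ _)) M1 w2 s2 n3 n2
  have z2 := Wrap.der (ξ := x.re) L An (S := S) (by linarith) pT (by linarith) (by linarith)
  have z3 : ‖dl g Y W (vt x.re S)‖ ≤ 1 := by
    rw [dl, norm_div, norm_mul, norm_mul, Complex.norm_real, Real.norm_of_nonneg (by linarith),
      Complex.norm_two]
    have := mul_le_mul z1 z2 (norm_nonneg _) zero_le_one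
    linarith
  by_cases h : -x.im ≤ S
  · have := HW W w1 g Y p S x.re L P Ac p0 (by linarith) (by nlinarith) le_rfl
      (by linarith) (by linarith) z3 (-x.im - p) (by linarith) (by linarith)
    have e2 : vt x.re (p + (-x.im - p)) = x := by apply Complex.ext <;> simp
    rwa [e2] at this
  · have := L.pos x x2
    linarith

end Vale.Agent.P097F.NC
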