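import Vale.Agent.P097F.NC.Defs

/-! # P097F.NC: three small lemmas -/

set_option linter.all false

noncomputable section

namespace Vale.Agent.P097F.NC

open Filter Topology Set Metric

theorem sim : S_SIM := by
  intro δ
  have hS := norm_nonneg (Complex.sin δ - δ * Complex.cos δ)
  by_cases h : |δ.im| ≤ 2
  · have h1 : Real.exp |δ.im| ≤ Real.exp 1 * Real.exp 1 := by
      rw [← Real.exp_add]; exact Real.exp_le_exp.2 (by linarith)
    have h2 := Real.exp_one_lt_d9
    have h3 := Real.exp_pos 1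
    nlinarith
  push Not at h
  have na : ‖Complex.exp (δ * Complex.I)‖ = Real.exp (-δ.im) := by
    rw [Complex.norm_exp]; simp
  have nb : ‖Complex.exp (-δ * Complex.I)‖ = Real.exp δ.im := by
    rw [Complex.norm_exp]; simp
  have hc : 2 * Complex.cos δ = Complex.exp (δ * Complex.I) + Complex.exp (-δ * Complex.I) :=
    Complex.two_cos δ
  have hs : 2 * Complex.sin δ =
      (Complex.exp (-δ * Complex.I) - Complex.exp (δ * Complex.I)) * Complex.I := Complex.two_sin δ
  have c2 : ‖2 * Complex.cos δ‖ = 2 * ‖Complex.cos δ‖ := by rw [norm_mul]; simp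
  have s2 : ‖2 * Complex.sin δ‖ = 2 * ‖Complex.sin δ‖ := by rw [norm_mul]; simp
  have s3 : 2 * ‖Complex.sin δ‖ ≤ Real.exp δ.im + Real.exp (-δ.im) := by
    rw [← s2, hs, norm_mul, Complex.norm_I, mul_one, ← na, ← nb]
    exact norm_sub_le _ _
  have c3 : Real.exp δ.im - Real.exp (-δ.im) ≤ 2 * ‖Complex.cos δ‖ := by
    rw [← c2, hc, ← na, ← nb]
    have := norm_sub_le (Complex.exp (δ * Complex.I) + Complex.exp (-δ * Complex.I))
      (Complex.exp (δ * Complex.I))
    rw [add_sub_cancel_left] at this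
    linarith
  have c4 : Real.exp (-δ.im) - Real.exp δ.im ≤ 2 * ‖Complex.cos δ‖ := by
    rw [← c2, hc, ← na, ← nb]
    have := norm_sub_le (Complex.exp (δ * Complex.I) + Complex.exp (-δ * Complex.I))
      (Complex.exp (-δ * Complex.I))
    rw [add_sub_cancel_right] at this
    linarith
  have d1 : 2 ≤ ‖δ‖ := h.le.trans (Complex.abs_im_le_norm δ)
  have d2 : ‖δ‖ * ‖Complex.cos δ‖ ≤
      ‖Complex.sin δ‖ + ‖Complex.sin δ - δ * Complex.cos δ‖ := by
    have := norm_sub_le (Complex.sin δ) (Complex.sin δ - δ * Complex.cos δ)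
    rwa [sub_sub_cancel, norm_mul] at this
  have d3 : 2 * ‖Complex.cos δ‖ ≤ ‖δ‖ * ‖Complex.cos δ‖ :=
    mul_le_mul_of_nonneg_right d1 (norm_nonneg _)
  rcases abs_cases δ.im with ⟨e, e'⟩ | ⟨e, e'⟩
  · rw [e]
    have : Real.exp (-δ.im) ≤ 1 := Real.exp_le_one_iff.2 (by linarith)
    have := Real.exp_pos δ.im
    linarith
  · rw [e]
    have : Real.exp δ.im ≤ 1 := Real.exp_le_one_iff.2 (by linarith)
    have := Real.exp_pos (-δ.im)
    linarith

theorem der : S_DER := by
  intro f x ρ n hρ hn hd hb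
  have he := Real.exp_one_lt_d9
  let F : ℂ → ℂ := fun z => Complex.exp (f z * (Complex.I / n))
  have nF : ∀ z, ‖F z‖ = Real.exp (-(f z).im / n) := by
    intro z
    simp only [F]
    rw [Complex.norm_exp]
    congr 1
    have : Complex.I / (n : ℂ) = ((1 / n : ℝ) : ℂ) * Complex.I := by push_cast; ring
    rw [this]
    simp only [Complex.mul_re, Complex.mul_im, Complex.ofReal_re, Complex.ofReal_im, Complex.I_re,
      Complex.I_im]
    ring
  have up : ∀ z ∈ ball x ρ, ‖F z‖ ≤ 3 := by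
    intro z hz
    rw [nF]
    have h1 : -(f z).im / n ≤ 1 := by
      rw [div_le_one hn]
      have := (abs_le.1 (hb z hz)).1
      linarith
    exact (Real.exp_le_exp.2 h1).trans (by linarith)
  have hx : x ∈ ball x ρ := mem_ball_self hρ
  have lo : 1 ≤ 3 * ‖F x‖ := by
    rw [nF]
    have h1 : -1 ≤ -(f x).im / n := by
      rw [le_div_iff₀ hn]
      have := (abs_le.1 (hb x hx)).2
      linarith
    have h2 := Real.exp_le_exp.2 h1
    have h3 : Real.exp (-1) * Real.exp 1 = 1 := by rw [← Real.exp_add]; simp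
    have h4 := Real.exp_pos (-1)
    nlinarith
  have dF : DifferentiableOn ℂ F (ball x ρ) := (hd.mul_const _).cexp
  have hm : MapsTo F (ball x ρ) (closedBall (F x) 6) := by
    intro z hz
    rw [mem_closedBall, dist_eq_norm]
    have := norm_sub_le (F z) (F x)
    linarith [up z hz, up x hx]
  have h1 := Complex.norm_deriv_le_div_of_mapsTo_ball dF hm hρ
  have hf : HasDerivAt f (deriv f x) x :=
    (hd.differentiableAt (isOpen_ball.mem_nhds hx)).hasDerivAt
  have h2 : HasDerivAt F (F x * (deriv f x * (Complex.I / n))) x := (hf.mul_const _).cexp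
  rw [h2.deriv, norm_mul, norm_mul, norm_div, Complex.norm_I, Complex.norm_real,
    Real.norm_of_nonneg hn.le, le_div_iff₀ hρ] at h1
  have h3 : 0 ≤ ‖deriv f x‖ * ρ / n := by positivity
  have h4 : ‖F x‖ * (‖deriv f x‖ * ρ / n) ≤ 6 := by
    refine le_of_eq_of_le ?_ h1
    ring
  have h5 : ‖deriv f x‖ * ρ / n ≤ 20 := by nlinarith
  rwa [div_le_iff₀ hn] at h5

theorem exit : S_EXIT := by
  intro f α β c hαβ hf ha hb
  constructor
  · have hc : IsCompact (Icc α β ∩ f ⁻¹' Iic c) :=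
      isCompact_Icc.of_isClosed_subset
        (hf.preimage_isClosed_of_isClosed isClosed_Icc isClosed_Iic) inter_subset_left
    obtain ⟨t, ht, hm⟩ := hc.exists_isGreatest ⟨α, ⟨le_rfl, hαβ⟩, ha⟩
    obtain ⟨u, hu, hfu⟩ := intermediate_value_Icc ht.1.2
      (hf.mono (Icc_subset_Icc_left ht.1.1)) (⟨ht.2, hb⟩ : c ∈ Icc (f t) (f β))
    have hu' : u ≤ t := hm ⟨⟨ht.1.1.trans hu.1, hu.2⟩, hfu.le⟩
    have e : u = t := le_antisymm hu' hu.1
    rw [e] at hfu
    refine ⟨t, ht.1, hfu, fun s hs => ?_⟩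
    by_contra hn
    push Not at hn
    have h1 : s ≤ t := hm ⟨⟨ht.1.1.trans hs.1, hs.2⟩, hn.le⟩
    rw [le_antisymm h1 hs.1, hfu] at hn
    exact lt_irrefl _ hn
  · have hc : IsCompact (Icc α β ∩ f ⁻¹' Ici c) :=
      isCompact_Icc.of_isClosed_subset
        (hf.preimage_isClosed_of_isClosed isClosed_Icc isClosed_Ici) inter_subset_left
    obtain ⟨t, ht, hm⟩ := hc.exists_isLeast ⟨β, ⟨hαβ, le_rfl⟩, hb⟩
    obtain ⟨u, hu, hfu⟩ := intermediate_value_Icc ht.1.1
      (hf.mono (Icc_subset_Icc_right ht.1.2)) (⟨ha, ht.2⟩ : c ∈ Icc (f α) (f t))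
    have hu' : t ≤ u := hm ⟨⟨hu.1, hu.2.trans ht.1.2⟩, hfu.ge⟩
    have e : u = t := le_antisymm hu.2 hu'
    rw [e] at hfu
    refine ⟨t, ht.1, hfu, fun s hs => ?_⟩
    by_contra hn
    push Not at hn
    have h1 : t ≤ s := hm ⟨⟨hs.1, hs.2.trans ht.1.2⟩, hn.le⟩
    rw [le_antisymm hs.2 h1, hfu] at hn
    exact lt_irrefl _ hn

end Vale.Agent.P097F.NC
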